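import Crest.Agent.X261.Fam77.Bd

/-!
# Row 261, package FAM (helper77): the lower bound on translates

* `exists_cover` : compact sets of the cover lie in finitely many compact chart pieces;
* `Lo` : the fibre energy is at least `E`; `lo_nat` : naturality;
* `low_of`, `low_mat`, `low_clm` : the field `low` of `Rel.Min`.
-/

set_option autoImplicit false
set_option linter.unusedSectionVars false

open Set Filter Topology MeasureTheory Matrix
open scoped ComplexConjugate ComplexOrder InnerProductSpace ContDiff ENNReal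

namespace Crest.Agent.X261.Fam77

open Crest.Agent.R275.Geo Crest.Agent.R273.UCov_914 Crest.Agent.R273.Kah_333
open Crest.Agent.R273.Fock_243
open Crest.Agent.X261.Fam

noncomputable section

variable {n q : ℕ} {X : Type} [TopologicalSpace X] {A : Atl n X} {G : Type} [Group G]

theorem vol_clm (L : Cn q →L[ℂ] Cn q) (l : Cn q) (s : Set (Cn q)) :
    volume ((fun t => L t + l) '' s) =
      ENNReal.ofReal (‖LinearMap.det (L : Cn q →ₗ[ℂ] Cn q)‖ ^ 2) * volume s := by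
  have h : (fun t => L t + l) '' s = (fun t => t + l) ''
      (((L : Cn q →ₗ[ℂ] Cn q).restrictScalars ℝ) '' s) := by
    rw [image_image]; rfl
  rw [h, image_add_right, measure_preimage_add_right, Measure.addHaar_image_linearMap,
    LinearMap.det_restrictScalars, Algebra.norm_complex_apply, Complex.normSq_eq_norm_sq,
    abs_of_nonneg (sq_nonneg _)]

theorem det_mL' (L : Mt q) : LinearMap.det (mL L : Cn q →ₗ[ℂ] Cn q) = L.det := by
  have h : ((mL L : Cn q →L[ℂ] Cn q) : Cn q →ₗ[ℂ] Cn q) = Matrix.toLpLin 2 2 L := rfl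
  rw [h, Matrix.toLpLin_eq_toLin, LinearMap.det_toLin]

/-- compact sets of the cover lie in finitely many compact chart pieces -/
theorem exists_cover [CompactSpace X] [T2Space X] [Finite A.ι] (D : MonD A G) :
    ∃ Kc : A.ι → Set (Cn n), (∀ i, IsCompact (Kc i) ∧ Kc i ⊆ (A.e i).target) ∧
      ∀ C : Set (D.cov G), IsCompact C → ∃ T : Finset (A.ι × G), ∀ e ∈ C, ∃ p ∈ T,
        ∃ z ∈ Kc p.1, e = D.pt p.1 p.2 ((A.e p.1).symm z) := by
  classical
  obtain ⟨K0, h1, h2, h3⟩ := MonD.exists_shrink A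
  refine ⟨fun i => A.e i '' K0 i, fun i => ⟨(h1 i).image_of_continuousOn
    ((A.e i).continuousOn.mono (h2 i)), ?_⟩, fun C hC => ?_⟩
  · rintro _ ⟨x, hx, rfl⟩
    exact (A.e i).map_source (h2 i hx)
  have h4 : ∀ i, ∃ t : Finset G, C ∩ D.pr ⁻¹' K0 i ⊆ ⋃ v ∈ t, D.sheet i v := fun i =>
    (hC.inter_right ((h1 i).isClosed.preimage D.continuous_pr)).elim_finite_subcover
      (fun v => D.sheet i v) (fun v => D.isOpen_sheet i v) fun e he =>
        mem_iUnion.2 ⟨D.co i e, h2 i he.2, rfl⟩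
  choose t ht using h4
  have := Fintype.ofFinite A.ι
  refine ⟨Finset.univ.biUnion fun i => (t i).image fun v => (i, v), fun e he => ?_⟩
  obtain ⟨i, hi⟩ := mem_iUnion.1 (h3 ▸ mem_univ (D.pr e) : D.pr e ∈ ⋃ j, K0 j)
  obtain ⟨v, hv, hs⟩ := mem_iUnion₂.1 (ht i ⟨he, hi⟩)
  refine ⟨(i, v), Finset.mem_biUnion.2 ⟨i, Finset.mem_univ _, Finset.mem_image_of_mem _ hv⟩,
    A.e i (D.pr e), mem_image_of_mem _ hi, ?_⟩
  rw [(A.e i).left_inv (h2 i hi), ← hs.2, D.pt_co (h2 i hi)]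

variable {H : Type*} [NormedAddCommGroup H] [InnerProductSpace ℂ H]

/-- the fibre energy is at least `E` -/
def Lo (D : MonD A G) (K : Kah A) (M : Subgroup G) (a : D.cov G → Cn q)
    (S : A.ι → G → X → FI n → H) (E : ℝ) : Prop :=
  ∀ (T : Finset (A.ι × G)) (Kc : A.ι → Set (Cn n)),
    (∀ i, IsCompact (Kc i) ∧ Kc i ⊆ (A.e i).target) → ∀ U : Set (Cn q), IsCompact U →
    (∀ e, a e ∈ U → ∃ m ∈ M, ∃ p ∈ T, ∃ z ∈ Kc p.1,
      m • e = D.pt p.1 p.2 ((A.e p.1).symm z)) →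
    E * (volume U).toReal ≤ ∑ p ∈ T, ∫ z in Kc p.1,
      n2 (K.g p.1 ((A.e p.1).symm z)) (S p.1 p.2 ((A.e p.1).symm z))

variable {D : MonD A G} {K : Kah A} {M : Subgroup G} {a : D.cov G → Cn q}
variable {S : A.ι → G → X → FI n → H} {E : ℝ}

/-- the lower bound on a translate -/
theorem lo_tr [M.Normal] (hL : Lo D K M a S E) {g : G} {φ : Cn q → Cn q} (hc : Continuous φ)
    (hi : Function.Injective φ) (h : ∀ e, a (g • e) = φ (a e)) (T : Finset (A.ι × G))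
    (Kc : A.ι → Set (Cn n)) (hK : ∀ i, IsCompact (Kc i) ∧ Kc i ⊆ (A.e i).target)
    (U : Set (Cn q)) (hU : IsCompact U) (hT : ∀ e, a e ∈ U → ∃ m ∈ M, ∃ p ∈ T, ∃ z ∈ Kc p.1,
      m • e = D.pt p.1 p.2 ((A.e p.1).symm z)) :
    E * (volume (φ '' U)).toReal ≤ ∑ p ∈ T, ∫ z in Kc p.1,
      n2 (K.g p.1 ((A.e p.1).symm z)) (S p.1 (p.2 * g⁻¹) ((A.e p.1).symm z)) := by
  classical
  have hinj : Function.Injective fun p : A.ι × G => (p.1, p.2 * g⁻¹) := fun p p' hp => by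
    simp only [Prod.mk.injEq, mul_left_inj] at hp
    exact Prod.ext hp.1 hp.2
  have h1 := hL (T.image fun p => (p.1, p.2 * g⁻¹)) Kc hK (φ '' U) (hU.image hc) fun e he => by
    obtain ⟨t, ht, hte⟩ := he
    have h2 : a (g⁻¹ • e) = t := hi (by rw [← h, smul_inv_smul, hte])
    obtain ⟨m, hm, p, hp, z, hz, h3⟩ := hT (g⁻¹ • e) (h2 ▸ ht)
    refine ⟨g * m * g⁻¹, Subgroup.Normal.conj_mem ‹_› m hm g, (p.1, p.2 * g⁻¹),
      Finset.mem_image_of_mem _ hp, z, hz, ?_⟩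
    rw [mul_smul, mul_smul, h3, D.deck_pt]
  rwa [Finset.sum_image hinj.injOn] at h1

/-- **naturality of `Lo`** -/
theorem lo_nat [M.Normal] {g : G} {L : Mt q} {l : Fin q → ℂ} (hL : L.det ≠ 0)
    (h : ∀ e k, a (g • e) k = ∑ k', L k k' * a e k' + l k) (hB : Lo D K M a S E) :
    Lo D K M a (fun i v x => (L.det)⁻¹ • S i (v * g⁻¹) x) E := by
  intro T Kc hK U hU hT
  have hi : Function.Injective fun t => mL L t + WithLp.toLp 2 l := fun t t' ht => by
    have h0 : Function.Injective (mL L : Cn q →ₗ[ℂ] Cn q) :=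
      LinearMap.ker_eq_bot.1 (by
        by_contra h1
        exact hL (det_mL' L ▸ LinearMap.det_eq_zero_iff_ker_ne_bot.2 h1))
    exact h0 (add_right_cancel ht)
  have h1 := lo_tr hB (g := g) (φ := fun t => mL L t + WithLp.toLp 2 l) (by fun_prop) hi
    (fun e => by ext k; rw [h]; rfl) T Kc hK U hU hT
  rw [vol_aff, ENNReal.toReal_mul, ENNReal.toReal_ofReal (sq_nonneg _)] at h1
  have hp : 0 < ‖L.det‖ ^ 2 := by positivity
  simp only [n2_smul, integral_const_mul]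
  rw [← Finset.mul_sum, norm_inv, inv_pow, le_inv_mul_iff₀ hp, mul_left_comm]
  exact h1

theorem lo_congr {S' : A.ι → G → X → FI n → H}
    (h : ∀ i v, ∀ x ∈ (A.e i).source, S i v x = S' i v x) (hB : Lo D K M a S E) :
    Lo D K M a S' E := by
  intro T Kc hK U hU hT
  refine (hB T Kc hK U hU hT).trans (le_of_eq (Finset.sum_congr rfl fun p _ => ?_))
  refine setIntegral_congr_fun (hK p.1).1.measurableSet fun z hz => ?_
  simp only [h p.1 p.2 _ ((A.e p.1).map_target ((hK p.1).2 hz))]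

/-- **the field `low` of `Rel.Min`** -/
theorem low_of [CompactSpace X] [T2Space X] [Finite A.ι] [M.Normal] (hD : Dat D M a)
    (hφ : ∀ g : G, ∃ φ : Cn q → Cn q, Continuous φ ∧ Function.Injective φ ∧
      (∀ s, volume (φ '' s) = volume s) ∧ ∀ e, a (g • e) = φ (a e))
    (hS : ∀ i v I, ContinuousOn (fun z => S i v ((A.e i).symm z) I) (A.e i).target)
    (hB : Bd D K a S E) (hL : Lo D K M a S E)
    (hne : ∃ i v, ∃ x ∈ (A.e i).source, S i v x ≠ 0) :
    ∃ (T : Finset (A.ι × G)) (Kc : A.ι → Set (Cn n)) (c : ℝ≥0∞), 0 < c ∧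
      (∀ i, IsCompact (Kc i) ∧ Kc i ⊆ (A.e i).target) ∧ ∀ g : G,
        c ≤ ∑ p ∈ T, ∑ I, ∫⁻ z in Kc p.1, ‖S p.1 (p.2 * g) ((A.e p.1).symm z) I‖ₑ ^ 2 := by
  have hE : 0 < E := by
    by_contra h
    obtain ⟨i, v, x, hx, h0⟩ := hne
    exact h0 (eq_zero_of_bd hB (not_lt.1 h) hS i v x hx)
  obtain ⟨Kc, hK, hcov⟩ := exists_cover D
  obtain ⟨C0, hC0, hp⟩ := hD.prop 1
  obtain ⟨T, hT⟩ := hcov C0 hC0
  choose C hC hhi using fun i => exists_hi K i (hK i).1 (hK i).2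
  obtain ⟨C1, hC1⟩ := (Set.finite_range C).bddAbove
  have hC2 : 0 < max C1 1 := lt_max_of_lt_right one_pos
  have hV : 0 < (volume (Metric.closedBall (0 : Cn q) 1)).toReal :=
    ENNReal.toReal_pos (Metric.measure_closedBall_pos _ _ one_pos).ne'
      measure_closedBall_lt_top.ne
  refine ⟨T, Kc, ENNReal.ofReal (E * (volume (Metric.closedBall (0 : Cn q) 1)).toReal / max C1 1),
    ENNReal.ofReal_pos.2 (by positivity), hK, fun g => ?_⟩
  obtain ⟨φ, h1, h2, h3, h4⟩ := hφ g⁻¹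
  have h5 := lo_tr hL h1 h2 h4 T Kc hK _ (isCompact_closedBall 0 1) fun e he => by
    obtain ⟨m, hm, hme⟩ := hp e (mem_closedBall_zero_iff.1 he)
    obtain ⟨p, hp', z, hz, h6⟩ := hT _ hme
    exact ⟨m, hm, p, hp', z, hz, h6⟩
  rw [h3, inv_inv] at h5
  have hc : ∀ p : A.ι × G, ∀ I, ContinuousOn
      (fun z => S p.1 (p.2 * g) ((A.e p.1).symm z) I) (Kc p.1) := fun p I =>
    (hS _ _ I).mono (hK p.1).2
  have hi : ∀ p : A.ι × G, ∀ I, IntegrableOn
      (fun z => ‖S p.1 (p.2 * g) ((A.e p.1).symm z) I‖ ^ 2) (Kc p.1) := fun p I =>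
    ((hc p I).norm.pow 2).integrableOn_compact (hK p.1).1
  have h7 : ∀ p : A.ι × G, ∫ z in Kc p.1,
      n2 (K.g p.1 ((A.e p.1).symm z)) (S p.1 (p.2 * g) ((A.e p.1).symm z)) ≤
      max C1 1 * ∑ I, ∫ z in Kc p.1, ‖S p.1 (p.2 * g) ((A.e p.1).symm z) I‖ ^ 2 := fun p => by
    rw [← integral_finsetSum _ fun I _ => hi p I, ← integral_const_mul]
    refine setIntegral_mono_on ((cont_n2 K p.1 (hK p.1).2 (hc p)).integrableOn_compact (hK p.1).1)
      ((integrable_finsetSum _ fun I _ => hi p I).const_mul _) (hK p.1).1.measurableSet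
      fun z hz => (hhi p.1 z hz _).trans (mul_le_mul_of_nonneg_right
        ((hC1 (mem_range_self _)).trans (le_max_left _ _))
        (Finset.sum_nonneg fun _ _ => sq_nonneg _))
  have h8 : E * (volume (Metric.closedBall (0 : Cn q) 1)).toReal / max C1 1 ≤
      ∑ p ∈ T, ∑ I, ∫ z in Kc p.1, ‖S p.1 (p.2 * g) ((A.e p.1).symm z) I‖ ^ 2 := by
    rw [div_le_iff₀' hC2, Finset.mul_sum]
    exact h5.trans (Finset.sum_le_sum fun p _ => h7 p)
  refine (ENNReal.ofReal_le_ofReal h8).trans (le_of_eq ?_)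
  rw [ENNReal.ofReal_sum_of_nonneg fun p _ => Finset.sum_nonneg fun I _ =>
    integral_nonneg fun _ => sq_nonneg _]
  refine Finset.sum_congr rfl fun p _ => ?_
  rw [ENNReal.ofReal_sum_of_nonneg fun I _ => integral_nonneg fun _ => sq_nonneg _]
  exact Finset.sum_congr rfl fun I _ => (lint_sq (hK p.1).1 (hc p I)).symm

/-- `low_of` for affine maps given by continuous linear maps -/
theorem low_clm [CompactSpace X] [T2Space X] [Finite A.ι] [M.Normal] (hD : Dat D M a)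
    (hφ : ∀ g : G, ∃ (L : Cn q →L[ℂ] Cn q) (l : Cn q),
      ‖LinearMap.det (L : Cn q →ₗ[ℂ] Cn q)‖ = 1 ∧ ∀ e, a (g • e) = L (a e) + l)
    (hS : ∀ i v I, ContinuousOn (fun z => S i v ((A.e i).symm z) I) (A.e i).target)
    (hB : Bd D K a S E) (hL : Lo D K M a S E)
    (hne : ∃ i v, ∃ x ∈ (A.e i).source, S i v x ≠ 0) :
    ∃ (T : Finset (A.ι × G)) (Kc : A.ι → Set (Cn n)) (c : ℝ≥0∞), 0 < c ∧
      (∀ i, IsCompact (Kc i) ∧ Kc i ⊆ (A.e i).target) ∧ ∀ g : G,
        c ≤ ∑ p ∈ T, ∑ I, ∫⁻ z in Kc p.1, ‖S p.1 (p.2 * g) ((A.e p.1).symm z) I‖ₑ ^ 2 := by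
  refine low_of hD (fun g => ?_) hS hB hL hne
  obtain ⟨L, l, h1, h2⟩ := hφ g
  refine ⟨fun t => L t + l, by fun_prop, fun t t' ht => ?_, fun s => ?_, h2⟩
  · have h0 : Function.Injective (L : Cn q →ₗ[ℂ] Cn q) :=
      LinearMap.ker_eq_bot.1 (by
        by_contra h3
        rw [LinearMap.det_eq_zero_iff_ker_ne_bot.2 h3, norm_zero] at h1
        exact zero_ne_one h1)
    exact h0 (add_right_cancel ht)
  · rw [vol_clm, h1, one_pow, ENNReal.ofReal_one, one_mul]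

/-- `low_of` for affine maps given by matrices -/
theorem low_mat [CompactSpace X] [T2Space X] [Finite A.ι] [M.Normal] (hD : Dat D M a)
    (hφ : ∀ g : G, ∃ (L : Mt q) (l : Fin q → ℂ), ‖L.det‖ = 1 ∧
      ∀ e k, a (g • e) k = ∑ k', L k k' * a e k' + l k)
    (hS : ∀ i v I, ContinuousOn (fun z => S i v ((A.e i).symm z) I) (A.e i).target)
    (hB : Bd D K a S E) (hL : Lo D K M a S E)
    (hne : ∃ i v, ∃ x ∈ (A.e i).source, S i v x ≠ 0) :
    ∃ (T : Finset (A.ι × G)) (Kc : A.ι → Set (Cn n)) (c : ℝ≥0∞), 0 < c ∧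
      (∀ i, IsCompact (Kc i) ∧ Kc i ⊆ (A.e i).target) ∧ ∀ g : G,
        c ≤ ∑ p ∈ T, ∑ I, ∫⁻ z in Kc p.1, ‖S p.1 (p.2 * g) ((A.e p.1).symm z) I‖ₑ ^ 2 := by
  refine low_clm hD (fun g => ?_) hS hB hL hne
  obtain ⟨L, l, h1, h2⟩ := hφ g
  exact ⟨mL L, WithLp.toLp 2 l, by rw [det_mL', h1], fun e => by ext k; rw [h2]; rfl⟩

/-- naturality of `Bd` for continuous linear maps of determinant of modulus one -/
theorem bd_nat_clm {g : G} {L : Cn q →L[ℂ] Cn q} {l : Cn q}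
    (hL : ‖LinearMap.det (L : Cn q →ₗ[ℂ] Cn q)‖ = 1) (h : ∀ e, a (g • e) = L (a e) + l)
    (hB : Bd D K a S E) : Bd D K a (fun i v x => S i (v * g⁻¹) x) E := by
  intro i v Kc hK hc
  have h1 := hB i (v * g⁻¹) Kc hK hc
  have h2 : Fam.rd D a i (v * g⁻¹) '' Kc = (fun t => L t + l) '' (Fam.rd D a i v '' Kc) := by
    rw [image_image]
    congr 1
    funext z
    rw [rd_deck, h]
    rfl
  rwa [h2, vol_clm, hL, one_pow, ENNReal.ofReal_one, one_mul] at h1

end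

end Crest.Agent.X261.Fam77
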