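import Crest.Agent.X261.Fam77.UqA
import Crest.Agent.X261.Fam20.C

/-!
# Row 261, package FAM (helper77), part Uq: uniqueness of the fibrewise minimal form

* `IM_part`, `tend_n2`, `den_eq_zero` : the global integral through a partition of unity;
* `orthG` : global orthogonality from the local one;
* `uniq` : the second half of `Fam.FamStmt`.
-/

set_option autoImplicit false
set_option linter.unusedSectionVars false

open Set Filter Topology MeasureTheory Matrix
open scoped ComplexConjugate ComplexOrder InnerProductSpace ContDiff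

namespace Crest.Agent.X261.Fam77

open Crest.Agent.R275.Geo Crest.Agent.R275.Core144 Crest.Agent.R273.UCov_914
open Crest.Agent.R273.Kah_333 Crest.Agent.R275.EDR890
open Crest.Agent.R273.Fock_243
open Crest.Agent.X261.Fam
open Crest.Agent.X261.Cov.B (sum_psi)
open Crest.Agent.X261.Rel.Act (Rep)

noncomputable section

variable {n q : ℕ} {X : Type} [TopologicalSpace X] {A : Atl n X} {G : Type} [Group G]

theorem sm_cont {Y : Type} [TopologicalSpace Y] {B : Atl n Y} {W : Type*} [NormedAddCommGroup W]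
    [NormedSpace ℝ W] {f : Y → W} (hf : B.Sm f) : Continuous f := by
  rw [continuous_iff_continuousAt]
  intro x
  obtain ⟨i, hi⟩ := B.cover x
  have h1 : ContinuousAt (fun z => f ((B.e i).symm z)) (B.e i x) :=
    (hf i).continuousOn.continuousAt ((B.e i).open_target.mem_nhds ((B.e i).map_source hi))
  refine (ContinuousAt.comp (f := B.e i) h1 ((B.e i).continuousAt hi)).congr ?_
  filter_upwards [(B.e i).open_source.mem_nhds hi] with y hy
  rw [Function.comp_apply, (B.e i).left_inv hy]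

variable {D : MonD A G} {M : Subgroup G} {a : D.cov G → Cn q}

theorem sm_a (hd : Dat D M a) : (D.atl G).Sm a := fun p =>
  ((R266.SCV.analyticOnNhd_of_differentiableOn (A.e p.1).open_target
    (hol_rd hd p.1 p.2)).contDiffOn_of_completeSpace).restrict_scalars ℝ

/-- the support of `ψ j` in the chart `j` -/
def Kj (P : Part A) (j : A.ι) : Set (Cn n) := A.e j '' tsupport (P.ψ j)

theorem Kj_cpt [CompactSpace X] (P : Part A) (j : A.ι) : IsCompact (Kj P j) :=
  (isClosed_tsupport _).isCompact.image_of_continuousOn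
    ((A.e j).continuousOn.mono (MonD.tsupport_psi P j))

theorem Kj_sub (P : Part A) (j : A.ι) : Kj P j ⊆ (A.e j).target := by
  rintro _ ⟨x, hx, rfl⟩
  exact (A.e j).map_source (MonD.tsupport_psi P j hx)

theorem psi_off (P : Part A) (j : A.ι) {z : Cn n} (hz : z ∈ (A.e j).target) (h : z ∉ Kj P j) :
    P.ψ j ((A.e j).symm z) = 0 :=
  image_eq_zero_of_notMem_tsupport fun h1 => h ⟨_, h1, (A.e j).right_inv hz⟩

theorem psi_ev (P : Part A) {i j : A.ι} {x : X} (hi : x ∈ (A.e i).source)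
    (hj : x ∉ (A.e j).source) : ∀ᶠ z in 𝓝 (A.e i x), P.ψ j ((A.e i).symm z) = 0 := by
  have h1 : ∀ᶠ y in 𝓝 x, P.ψ j y = 0 :=
    notMem_tsupport_iff_eventuallyEq.1 fun h => hj (MonD.tsupport_psi P j h)
  have h2 := (A.e i).continuousAt_symm ((A.e i).map_source hi)
  rw [ContinuousAt, (A.e i).left_inv hi] at h2
  exact h2.eventually h1

/-- a weight cut by the partition of unity -/
def pw (D : MonD A G) (P : Part A) (j : A.ι) (φ : D.cov G → ℝ) (e : D.cov G) : ℝ :=
  P.ψ j (D.pr e) * φ e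

variable {H : Type*} [NormedAddCommGroup H] [InnerProductSpace ℂ H] {r : Rep M H}
variable {T T' : A.ι → G → Cn n → FI n → H}

theorem dP_pw (K : Kah A) (P : Part A) (j : A.ι) (φ : D.cov G → ℝ) (i : A.ι) (v : G) (z : Cn n) :
    dP D K (pw D P j φ) T T' i v z = (P.ψ j ((A.e i).symm z) : ℂ) * dP D K φ T T' i v z := by
  rw [dP, dP, ← mul_assoc, ← Complex.ofReal_mul]
  rfl

theorem den_pw (K : Kah A) (P : Part A) (j : A.ι) (h : Fm D M r T) (h' : Fm D M r T')
    {φ : D.cov G → ℝ} (hφ : Continuous φ) (hi : ∀ m ∈ M, ∀ e, φ (m • e) = φ e) {R : ℝ}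
    (hs : ∀ e, R < ‖a e‖ → φ e = 0) : Den D M a R (dP D K (pw D P j φ) T T') :=
  den_p2 K h h' (φ := pw D P j φ) (((sm_cont (P.ψ_sm j)).comp D.continuous_pr).mul hφ)
    (fun m hm e => by rw [pw, pw, hi m hm, D.pr_deck]) fun e he => by rw [pw, hs e he, mul_zero]

variable [Finite A.ι] [Countable G] [T2Space X]

theorem IM_part [Fintype A.ι] (K : Kah A) (P : Part A) (hd : Dat D M a) (h : Fm D M r T)
    (h' : Fm D M r T') {φ : D.cov G → ℝ} (hφ : Continuous φ)
    (hi : ∀ m ∈ M, ∀ e, φ (m • e) = φ e) {R : ℝ} (hs : ∀ e, R < ‖a e‖ → φ e = 0)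
    {T0 : Finset (G ⧸ M)}
    (hT : ∀ j, ∀ w ∉ T0, ∀ z ∈ (A.e j).target, R < ‖Fam.rd D a j w.out z‖) :
    IM D K M (dP D K φ T T') =
      ∑ j, ∑ w ∈ T0, ∫ z in (A.e j).target, dP D K (pw D P j φ) T T' j w.out z := by
  have h1 : IM D K M (dP D K φ T T') =
      IM D K M fun i v z => ∑ j, dP D K (pw D P j φ) T T' i v z :=
    IM_congr K fun i v z _ => by
      simp only [dP_pw]
      rw [← Finset.sum_mul, ← Complex.ofReal_sum, sum_psi, Complex.ofReal_one, one_mul]
  rw [h1, IM_sum K hd _ fun j _ => den_pw K P j h h' hφ hi hs]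
  refine Finset.sum_congr rfl fun j _ => IM_eq_sum K hd (den_pw K P j h h' hφ hi hs) j T0
    (fun i v x hx hj => ?_) fun w hw z hz => (den_pw K P j h h' hφ hi hs).supp j _ z hz
      (hT j w hw z hz)
  rw [dP_pw, (psi_ev P hx hj).self_of_nhds, Complex.ofReal_zero, zero_mul]

theorem tend_n2 [CompactSpace X] (K : Kah A) (P : Part A) (hd : Dat D M a)
    {B : ℕ → A.ι → G → Cn n → FI n → H} (hB : ∀ k, Fm D M r (B k))
    (hl : ∀ i v, ∀ Kc ⊆ (A.e i).target, IsCompact Kc → ∀ I,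
      Tendsto (fun k => ∫ z in Kc, ‖B k i v z I‖ ^ 2) atTop (𝓝 0))
    {φ : D.cov G → ℝ} (hφ : Continuous φ) (hi : ∀ m ∈ M, ∀ e, φ (m • e) = φ e) {R : ℝ}
    (hs : ∀ e, R < ‖a e‖ → φ e = 0) :
    Tendsto (fun k => IM D K M (dP D K φ (B k) (B k))) atTop (𝓝 0) := by
  have := Fintype.ofFinite A.ι
  obtain ⟨T0, hT⟩ := hd.exists_fin R
  simp only [fun k => IM_part K P hd (hB k) (hB k) hφ hi hs hT]
  have h0 : (0 : ℂ) = ∑ _j : A.ι, ∑ _w ∈ T0, 0 := by simp
  rw [h0]
  refine tendsto_finsetSum _ fun j _ => tendsto_finsetSum _ fun w _ => ?_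
  obtain ⟨C, hC0, hC⟩ := exists_hi K j (Kj_cpt P j) (Kj_sub P j)
  obtain ⟨C', hC'⟩ := (Kj_cpt P j).exists_bound_of_continuousOn
    ((cont_rd (φ := pw D P j φ) (((sm_cont (P.ψ_sm j)).comp D.continuous_pr).mul hφ) j
      w.out).mono (Kj_sub P j))
  have hi' : ∀ k I, IntegrableOn (fun z => ‖B k j w.out z I‖ ^ 2) (Kj P j) := fun k I =>
    ((((hB k).cont j w.out I).mono (Kj_sub P j)).norm.pow 2).integrableOn_compact (Kj_cpt P j)
  have h1 : Tendsto (fun k => max C' 0 * (C * ∑ I, ∫ z in Kj P j, ‖B k j w.out z I‖ ^ 2)) atTop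
      (𝓝 0) := by
    have := ((tendsto_finsetSum Finset.univ fun I _ =>
      hl j w.out _ (Kj_sub P j) (Kj_cpt P j) I).const_mul C).const_mul (max C' 0)
    simpa using this
  refine squeeze_zero_norm (fun k => ?_) h1
  rw [setIntegral_eq_of_subset_of_forall_sdiff_eq_zero (A.e j).open_target.measurableSet
    (Kj_sub P j) fun z hz => by rw [dP_pw, psi_off P j hz.1 hz.2, Complex.ofReal_zero, zero_mul],
    ← integral_finsetSum _ fun I _ => hi' k I, ← integral_const_mul, ← integral_const_mul]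
  refine norm_integral_le_of_norm_le
    (((integrable_finsetSum _ fun I _ => hi' k I).const_mul _).const_mul _)
    ((ae_restrict_mem (Kj_cpt P j).measurableSet).mono fun z hz => ?_)
  have hp := gr_pos K j (Kj_sub P j hz)
  rw [dP, norm_mul, Complex.norm_real]
  refine mul_le_mul ((hC' z hz).trans (le_max_left _ _)) ?_ (norm_nonneg _) (le_max_right _ _)
  have h2 := norm_p2_le hp (B k j w.out z) (B k j w.out z)
  have h3 := hC z hz (B k j w.out z)
  change ‖p2 (gr K j z) _ _‖ ≤ _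
  change n2 (gr K j z) _ ≤ _ at h3
  linarith

attribute [local instance] mZ bZ cZ in
theorem den_eq_zero (K : Kah A) (hd : Dat D M a) {R : ℝ} {Φ : A.ι → G → Cn n → ℂ}
    (h : Den D M a R Φ) (e : ∀ i v, ∀ z ∈ (A.e i).target, 0 ≤ (Φ i v z).re)
    (h0 : (IM D K M Φ).re ≤ 0) : ∀ i v, ∀ x ∈ (A.e i).source, (Φ i v (A.e i x)).re = 0 := by
  have h1 : (IM D K M Φ).re = 0 := le_antisymm h0 (re_IM_nonneg K hd h e)
  have h2 : 0 ≤ fun y => (gl D K M Φ y).re := fun y => by
    change 0 ≤ (gl D K M Φ y).re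
    rw [re_gl]
    exact div_nonneg (e _ _ _ ((A.e _).map_source (T223.Hm.ix_mem _)))
      (det_re_pos (K.pos _ _ (T223.Hm.ix_mem _))).le
  rw [re_IM K hd h, integral_eq_zero_iff_of_nonneg h2 (h.integrable K hd).re] at h1
  have : (mu D K M).IsOpenPosMeasure := R273.Vm_333.isOpenPos_vm _
  have h3 := (Continuous.ae_eq_iff_eq (mu D K M)
    (Complex.continuous_re.comp (h.continuous_gl K)) continuous_zero).1 h1
  intro i v x hx
  have h4 : (gl D K M Φ (D.pt i (v : G ⧸ M) x)).re = 0 := congrFun h3 _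
  rw [h.gl_pt K v hx, det_ofReal (K.pos i x hx), Complex.div_ofReal_re, div_eq_zero_iff] at h4
  exact h4.resolve_right (det_re_pos (K.pos i x hx)).ne'

/-- the local orthogonality -/
def Ort (D : MonD A G) (K : Kah A) (a : D.cov G → Cn q) (r : Rep M H)
    (T : A.ι → G → Cn n → FI n → H) : Prop :=
  ∀ i v (u : Cn n → H), ContDiff ℝ ∞ u → HasCompactSupport u → tsupport u ⊆ (A.e i).target →
    (∀ z, r.J (u z) = u z) →
    ∫ z, (p2 (K.g i ((A.e i).symm z)) (Sl (Fam.rd D a i v) u z) (T i v z)).re = 0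

/-- orthogonality to maps living over one chart -/
theorem orth_one (K : Kah A) (hd : Dat D M a) (hT : Fm D M r T) (ho : Ort D K a r T)
    {w : D.cov G → H} (hw : (D.atl G).Sm w) (hr : ∀ e, r.J (w e) = w e) {χ : Cn q → ℝ}
    (hχ : ContDiff ℝ ∞ χ) (j : A.ι) (v : G) {Kc : Set (Cn n)} (hK : IsCompact Kc)
    (hKt : Kc ⊆ (A.e j).target) (h0 : ∀ z ∈ (A.e j).target, z ∉ Kc → Fam.rd D w j v z = 0) :
    (∫ z in (A.e j).target, dP D K (fun e => χ (a e))
      (fun i v => Sl (Fam.rd D a i v) (Fam.rd D w i v)) T j v z).re = 0 := by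
  set F : Cn n → H := fun z => ((χ (Fam.rd D a j v z) : ℝ) : ℂ) • Fam.rd D w j v z with hF
  set u : Cn n → H := (A.e j).target.indicator F with hu
  have hoff : ∀ z ∉ Kc, u z = 0 := fun z hz => by
    by_cases h1 : z ∈ (A.e j).target
    · rw [hu, indicator_of_mem h1, hF]
      simp only [h0 z h1 hz, smul_zero]
    · exact indicator_of_notMem h1 _
  have hev : ∀ z ∉ Kc, ∀ᶠ y in 𝓝 z, u y = 0 := fun z hz =>
    mem_of_superset (hK.isClosed.isOpen_compl.mem_nhds hz) hoff
  have hin : ∀ z ∈ (A.e j).target, u =ᶠ[𝓝 z] F := fun z hz =>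
    mem_of_superset ((A.e j).open_target.mem_nhds hz) fun y hy => indicator_of_mem hy _
  have hχ' : ContDiff ℝ ∞ fun t => ((χ t : ℝ) : ℂ) := Complex.ofRealCLM.contDiff.comp hχ
  have hFs : ContDiffOn ℝ ∞ F (A.e j).target :=
    (hχ'.comp_contDiffOn (sm_rd (sm_a hd) j v)).smul (sm_rd hw j v)
  have hus : ContDiff ℝ ∞ u := contDiff_iff_contDiffAt.2 fun z => by
    by_cases h1 : z ∈ Kc
    · exact (hFs.contDiffAt ((A.e j).open_target.mem_nhds (hKt h1))).congr_of_eventuallyEq
        (hin z (hKt h1))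
    · exact contDiffAt_const.congr_of_eventuallyEq (hev z h1)
  have hts : tsupport u ⊆ Kc := closure_minimal (fun z hz => by_contra fun h => hz (hoff z h))
    hK.isClosed
  have h1 := ho j v u hus (hK.of_isClosed_subset (isClosed_tsupport _) hts) (hts.trans hKt)
    fun z => by
      by_cases h1 : z ∈ (A.e j).target
      · rw [hu, indicator_of_mem h1, hF]
        simp only [r.J_real_smul, Fam.rd, hr]
      · rw [hu, indicator_of_notMem h1, map_zero]
  have h2 : ∀ z ∈ (A.e j).target, dP D K (fun e => χ (a e))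
      (fun i v => Sl (Fam.rd D a i v) (Fam.rd D w i v)) T j v z =
      p2 (K.g j ((A.e j).symm z)) (Sl (Fam.rd D a j v) u z) (T j v z) := fun z hz => by
    rw [Sl_congr _ (hin z hz), hF, Sl_hor (χ := fun t => ((χ t : ℝ) : ℂ))
      ((hol_rd hd j v).differentiableAt ((A.e j).open_target.mem_nhds hz)) (dif_rd hw j v hz)
      (hχ'.differentiable (by simp) _), p2_smul_left]
    rfl
  have h3 : ∀ z ∉ Kc, p2 (K.g j ((A.e j).symm z)) (Sl (Fam.rd D a j v) u z) (T j v z) = 0 :=
    fun z hz => by rw [Sl_zero _ (hev z hz), p2_zero_left]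
  have h4 : IntegrableOn (fun z => p2 (K.g j ((A.e j).symm z)) (Sl (Fam.rd D a j v) u z) (T j v z))
      Kc := (cont_p2 K j hKt (fun I => (cont_Sl (A.e j).open_target (hol_rd hd j v)
        hus.contDiffOn I).mono hKt) fun I => (hT.cont j v I).mono hKt).integrableOn_compact hK
  rw [setIntegral_congr_fun (A.e j).open_target.measurableSet h2,
    setIntegral_eq_of_subset_of_forall_sdiff_eq_zero (A.e j).open_target.measurableSet hKt
      fun z hz => h3 z hz.2]
  rw [← setIntegral_eq_integral_of_forall_compl_eq_zero (s := Kc) fun z hz => by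
    rw [h3 z hz, Complex.zero_re]] at h1
  exact (integral_re h4).symm.trans h1

/-- **global orthogonality** -/
theorem orthG [CompactSpace X] (K : Kah A) (P : Part A) (hd : Dat D M a) (hT : Fm D M r T)
    (ho : Ort D K a r T) {w : D.cov G → H} (hw : (D.atl G).Sm w) (hr : ∀ e, r.J (w e) = w e)
    (he : ∀ (m : M) e, w ((m : G) • e) = r.π m (w e)) {χ : Cn q → ℝ} (hχ : ContDiff ℝ ∞ χ) {R : ℝ}
    (hs : ∀ t, R < ‖t‖ → χ t = 0) :
    (IM D K M (dP D K (fun e => χ (a e))
      (fun i v => Sl (Fam.rd D a i v) (Fam.rd D w i v)) T)).re = 0 := by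
  have := Fintype.ofFinite A.ι
  obtain ⟨T0, hT0⟩ := hd.exists_fin R
  set W : A.ι → D.cov G → H := fun j e => ((P.ψ j (D.pr e) : ℝ) : ℂ) • w e with hW
  have hWs : ∀ j, (D.atl G).Sm (W j) := fun j p =>
    (Complex.ofRealCLM.contDiff.comp_contDiffOn (P.ψ_sm j p.1)).smul (hw p)
  have hden : ∀ j, Den D M a R (dP D K (fun e => χ (a e))
      (fun i v => Sl (Fam.rd D a i v) (Fam.rd D (W j) i v)) T) := fun j =>
    den_p2 K (fm_Sl hd (hWs j) fun m => ⟨0, fun e => by
      simp only [hW, D.pr_deck, he, map_smul, add_zero]⟩) hT (φ := fun e => χ (a e))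
      (hχ.continuous.comp (sm_cont (sm_a hd))) (fun m hm e => by rw [hd.inv m hm])
      fun e h => hs _ h
  have h1 : IM D K M (dP D K (fun e => χ (a e))
      (fun i v => Sl (Fam.rd D a i v) (Fam.rd D w i v)) T) =
      IM D K M fun i v z => ∑ j, dP D K (fun e => χ (a e))
        (fun i v => Sl (Fam.rd D a i v) (Fam.rd D (W j) i v)) T i v z :=
    IM_congr K fun i v z hz => by
      have h2 : Fam.rd D w i v = fun y => ∑ j, Fam.rd D (W j) i v y := by
        funext y
        simp only [hW, Fam.rd]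
        rw [← Finset.sum_smul, ← Complex.ofReal_sum, sum_psi, Complex.ofReal_one, one_smul]
      simp only [dP]
      rw [← Finset.mul_sum, ← p2_sum_left, ← Sl_sum _ _ fun j _ => dif_rd (hWs j) i v hz, ← h2]
  rw [h1, IM_sum K hd _ fun j _ => hden j, Complex.re_sum]
  refine Finset.sum_eq_zero fun j _ => ?_
  rw [IM_eq_sum K hd (hden j) j T0 (fun i v x hx hj => ?_)
    fun w hw z hz => (hden j).supp j _ z hz (hT0 j w hw z hz), Complex.re_sum]
  · refine Finset.sum_eq_zero fun y _ => orth_one K hd hT ho (hWs j) (fun e => ?_) hχ j _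
      (Kj_cpt P j) (Kj_sub P j) fun z hz h => ?_
    · simp only [hW, r.J_real_smul, hr]
    · simp only [hW, Fam.rd, D.pr_pt, psi_off P j hz h, Complex.ofReal_zero, zero_smul]
  · rw [dP, Sl_zero, p2_zero_left, mul_zero]
    filter_upwards [psi_ev P hx hj] with z hz
    simp only [hW, Fam.rd, D.pr_pt, hz, Complex.ofReal_zero, zero_smul]

theorem fm_min {H : Type} [NormedAddCommGroup H] [InnerProductSpace ℂ H] {r : Rep M H}
    {b : M → H} {K : Kah A} {S : A.ι → G → X → FI n → H} (hd : Dat D M a)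
    (h : IsMin D K M a r b S) : Fm D M r fun i v z => S i v ((A.e i).symm z) :=
  ⟨fun i v I => (h.hol i v I).continuousOn, fun i j v x hx => by
      rw [(A.e i).left_inv hx.1, (A.e j).left_inv hx.2]
      exact Fam20.min_tr hd.hol h i j v x hx,
    fun m i v _ hz I => Fam20.min_eqv hd h m i v _ ((A.e i).map_target hz) I⟩

theorem tend_sub {Kc : Set (Cn n)} (hK : IsCompact Kc) {u u' : ℕ → Cn n → H}
    (hu : ∀ k, ContinuousOn (u k) Kc) (hu' : ∀ k, ContinuousOn (u' k) Kc)
    (h : Tendsto (fun k => ∫ z in Kc, ‖u k z‖ ^ 2) atTop (𝓝 0))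
    (h' : Tendsto (fun k => ∫ z in Kc, ‖u' k z‖ ^ 2) atTop (𝓝 0)) :
    Tendsto (fun k => ∫ z in Kc, ‖u k z - u' k z‖ ^ 2) atTop (𝓝 0) := by
  have h1 := (h.const_mul 2).add (h'.const_mul 2)
  rw [mul_zero, add_zero] at h1
  refine squeeze_zero (fun k => integral_nonneg fun _ => sq_nonneg _) (fun k => ?_) h1
  have i1 : IntegrableOn (fun z => ‖u k z‖ ^ 2) Kc := ((hu k).norm.pow 2).integrableOn_compact hK
  have i2 : IntegrableOn (fun z => ‖u' k z‖ ^ 2) Kc := ((hu' k).norm.pow 2).integrableOn_compact hK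
  rw [← integral_const_mul, ← integral_const_mul, ← integral_add (i1.const_mul 2) (i2.const_mul 2)]
  refine integral_mono ((((hu k).sub (hu' k)).norm.pow 2).integrableOn_compact hK)
    ((i1.const_mul 2).add (i2.const_mul 2)) fun z => ?_
  have h2 := pow_le_pow_left₀ (norm_nonneg _) (norm_sub_le (u k z) (u' k z)) 2
  change ‖u k z - u' k z‖ ^ 2 ≤ 2 * ‖u k z‖ ^ 2 + 2 * ‖u' k z‖ ^ 2
  nlinarith [sq_nonneg (‖u k z‖ - ‖u' k z‖)]

/-- a form which is orthogonal to approximations of itself vanishes -/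
theorem zero_of [CompactSpace X] (P : Part A) (K : Kah A) (hd : Dat D M a) (hT : Fm D M r T)
    {W B : ℕ → A.ι → G → Cn n → FI n → H} (hW : ∀ k, Fm D M r (W k)) (hB : ∀ k, Fm D M r (B k))
    (he : ∀ k i v, ∀ z ∈ (A.e i).target, T i v z = W k i v z - B k i v z)
    (hl : ∀ i v, ∀ Kc ⊆ (A.e i).target, IsCompact Kc → ∀ I,
      Tendsto (fun k => ∫ z in Kc, ‖B k i v z I‖ ^ 2) atTop (𝓝 0))
    {φ : D.cov G → ℝ} (hφ : Continuous φ) (h0 : ∀ e, 0 ≤ φ e)
    (hi : ∀ m ∈ M, ∀ e, φ (m • e) = φ e) {R : ℝ} (hs : ∀ e, R < ‖a e‖ → φ e = 0)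
    (ho : ∀ k, (IM D K M (dP D K φ (W k) T)).re = 0) {i : A.ι} {v : G} {x : X}
    (hx : x ∈ (A.e i).source) (h1 : φ (D.pt i v x) ≠ 0) : T i v (A.e i x) = 0 := by
  have hB0 := tend_n2 K P hd hB hl hφ hi hs
  have dT := den_p2 K hT hT hφ hi hs
  have hN : ∀ k, (IM D K M (dP D K φ T T)).re ≤ (IM D K M (dP D K φ (B k) (B k))).re := fun k => by
    have dB := den_p2 K (hB k) (hB k) hφ hi hs
    have e1 : IM D K M (dP D K φ T T) =
        IM D K M (dP D K φ (W k) T) - IM D K M (dP D K φ (B k) T) := by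
      rw [← IM_sub K hd (den_p2 K (hW k) hT hφ hi hs) (den_p2 K (hB k) hT hφ hi hs)]
      refine IM_congr K fun i v z hz => ?_
      rw [dP, dP, dP, ← mul_sub, ← p2_sub_left, ← he k i v z hz]
    have e3 := norm_IM_le K hd ((dB.smul (1 / 2 : ℝ)).add (dT.smul (1 / 2 : ℝ)))
      (Φ := dP D K φ (B k) T) fun i v z hz => by
        have hp := gr_pos K i hz
        have h3 : 0 ≤ Fam.rd D φ i v z := h0 _
        have h2 := mul_le_mul_of_nonneg_left (norm_p2_le hp (B k i v z) (T i v z)) h3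
        simp only [dP, norm_mul, Complex.norm_real, Complex.add_re, Complex.re_ofReal_mul]
        rw [Real.norm_of_nonneg h3]
        refine h2.trans (le_of_eq ?_)
        simp only [n2, gr]
        ring
    rw [IM_add K hd (dB.smul _) (dT.smul _), IM_smul, IM_smul, Complex.add_re,
      Complex.re_ofReal_mul, Complex.re_ofReal_mul] at e3
    have e4 := congrArg Complex.re e1
    rw [Complex.sub_re, ho k] at e4
    have e5 := (neg_le_abs _).trans (Complex.abs_re_le_norm (IM D K M (dP D K φ (B k) T)))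
    linarith
  have hN0 : (IM D K M (dP D K φ T T)).re ≤ 0 :=
    ge_of_tendsto' ((Complex.continuous_re.tendsto 0).comp hB0) hN
  have h2 := den_eq_zero K hd dT (fun i v z hz => by
    simp only [dP, Complex.re_ofReal_mul]
    exact mul_nonneg (h0 _) (n2_nonneg (gr_pos K i hz) _)) hN0 i v x hx
  rw [dP, Complex.re_ofReal_mul, rd_pt D _ v hx, (A.e i).left_inv hx, mul_eq_zero] at h2
  exact eq_zero_of_n2 (K.pos i x hx) (h2.resolve_left h1).le

theorem exists_bump (t : Cn q) : ∃ (χ : Cn q → ℝ) (R : ℝ), ContDiff ℝ ∞ χ ∧ (∀ s, 0 ≤ χ s) ∧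
    (∀ s, R < ‖s‖ → χ s = 0) ∧ χ t = 1 := by
  let χ : ContDiffBump t := ⟨1, 2, one_pos, one_lt_two⟩
  refine ⟨χ, ‖t‖ + 2, χ.contDiff, χ.nonneg', fun s hs => χ.zero_of_le_dist ?_,
    χ.one_of_mem_closedBall (Metric.mem_closedBall_self zero_le_one)⟩
  have := norm_sub_norm_le s t
  rw [dist_eq_norm]
  change (2 : ℝ) ≤ _
  linarith

/-- **uniqueness** of the fibrewise minimal form -/
theorem uniq [CompactSpace X] (P : Part A) (K : Kah A) (hd : Dat D M a) {H : Type}
    [NormedAddCommGroup H] [InnerProductSpace ℂ H] {r : Rep M H} {b : M → H}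
    {S S' : A.ι → G → X → FI n → H} (h : IsMin D K M a r b S) (h' : IsMin D K M a r b S') :
    ∀ i v, ∀ x ∈ (A.e i).source, S i v x = S' i v x := by
  intro i v x hx
  obtain ⟨f, hf, hl⟩ := h.lim
  obtain ⟨f', hf', hl'⟩ := h'.lim
  obtain ⟨χ, R, hχ, h0, hs, h1⟩ := exists_bump (a (D.pt i v x))
  have hφ : Continuous fun e => χ (a e) := hχ.continuous.comp (sm_cont (sm_a hd))
  have hi : ∀ m ∈ M, ∀ e, χ (a (m • e)) = χ (a e) := fun m hm e => by rw [hd.inv m hm]
  have hs' : ∀ e, R < ‖a e‖ → χ (a e) = 0 := fun e he => hs _ he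
  have m1 := fm_min hd h
  have m2 := fm_min hd h'
  have s1 : ∀ k, Fm D M r fun i v => Sl (Fam.rd D a i v) (Fam.rd D (f k) i v) := fun k =>
    fm_Sl hd (hf k).sm fun m => ⟨b m, (hf k).eqv m⟩
  have s2 : ∀ k, Fm D M r fun i v => Sl (Fam.rd D a i v) (Fam.rd D (f' k) i v) := fun k =>
    fm_Sl hd (hf' k).sm fun m => ⟨b m, (hf' k).eqv m⟩
  have hw : ∀ k, (D.atl G).Sm fun e => f k e - f' k e := fun k p =>
    ((hf k).sm p).sub ((hf' k).sm p)
  have hwe : ∀ k (m : M) e, f k ((m : G) • e) - f' k ((m : G) • e) = r.π m (f k e - f' k e) :=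
    fun k m e => by rw [(hf k).eqv, (hf' k).eqv, map_sub, add_sub_add_right_eq_sub]
  have hwr : ∀ k e, r.J (f k e - f' k e) = f k e - f' k e := fun k e => by
    rw [map_sub, (hf k).real, (hf' k).real]
  have s3 : ∀ k, Fm D M r fun i v =>
      Sl (Fam.rd D a i v) (Fam.rd D (fun e => f k e - f' k e) i v) := fun k =>
    fm_Sl hd (hw k) fun m => ⟨0, fun e => by rw [hwe, add_zero]⟩
  have h2 := zero_of P K hd (m1.sub m2) s3 (fun k => ((s1 k).sub m1).sub ((s2 k).sub m2))
    (fun k i v z hz => by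
      have e2 : Sl (Fam.rd D a i v) (Fam.rd D (fun e => f k e - f' k e) i v) z =
          Sl (Fam.rd D a i v) (Fam.rd D (f k) i v) z - Sl (Fam.rd D a i v) (Fam.rd D (f' k) i v) z :=
        Sl_sub _ (dif_rd (hf k).sm i v hz) (dif_rd (hf' k).sm i v hz)
      rw [e2]
      abel)
    (fun i v Kc hK hc I => tend_sub hc (fun k => (((s1 k).sub m1).cont i v I).mono hK)
      (fun k => (((s2 k).sub m2).cont i v I).mono hK) (hl i v Kc hK hc I) (hl' i v Kc hK hc I))
    hφ (fun e => h0 _) hi hs' (fun k => by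
      have o1 := orthG K P hd m1 h.orth (hw k) (hwr k) (hwe k) hχ hs
      have o2 := orthG K P hd m2 h'.orth (hw k) (hwr k) (hwe k) hχ hs
      have o3 := congrArg Complex.re
        (IM_sub K hd (den_p2 K (s3 k) m1 hφ hi hs') (den_p2 K (s3 k) m2 hφ hi hs'))
      rw [Complex.sub_re, o1, o2, sub_self] at o3
      rw [← o3]
      congr 1
      exact IM_congr K fun i v z _ => by rw [dP, dP, dP, p2_sub_right, mul_sub])
    hx (by rw [h1]; exact one_ne_zero)
  rw [(A.e i).left_inv hx] at h2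
  exact sub_eq_zero.1 h2

/-- the second half of `Fam.FamStmt` -/
def UqStmt : Prop :=
  ∀ (n q : ℕ) (X : Type) [TopologicalSpace X] [T2Space X] [CompactSpace X] (A : Atl n X)
    [Finite A.ι], Part A → ∀ (K : Kah A) (G : Type) [Group G] [Countable G] (D : MonD A G)
    (M : Subgroup G) (a : D.cov G → Cn q), Dat D M a →
    ∀ (H : Type) [NormedAddCommGroup H] [InnerProductSpace ℂ H] [CompleteSpace H],
      ∀ (r : Rep M H) (b : M → H) (S S' : A.ι → G → X → FI n → H), IsMin D K M a r b S →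
        IsMin D K M a r b S' → ∀ i v, ∀ x ∈ (A.e i).source, S i v x = S' i v x

theorem uqStmt : UqStmt := fun _ _ _ _ _ _ _ _ P K _ _ _ _ _ _ hd _ _ _ _ _ _ _ _ h h' =>
  uniq P K hd h h'

end

end Crest.Agent.X261.Fam77
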