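import Crest.Agent.X261.Fam77.Uq
import Crest.Agent.X261.Fam69.Defs
import Crest.Agent.X261.FamG.Lo

/-!
# Row 261, package FAM (helper77), part BL: the fibre energy is exactly `E`

* `int_piece`, `exists_seq` : tools;
* `ex_S` : the exact energy formula passes to the limit form;
* `bd_of`, `lo_of`, `bdlo_of` : `Bd` and `Lo` from the exact formula;
* `famStmt_of`, `fam2_of` : `Fam.FamStmt` from `Fam69.ExStmt`.
-/

set_option autoImplicit false
set_option linter.unusedSectionVars false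

open Set Filter Topology MeasureTheory Matrix
open scoped ComplexConjugate ComplexOrder InnerProductSpace ContDiff

namespace Crest.Agent.X261.Fam77

open Crest.Agent.R275.Geo Crest.Agent.R275.Core144 Crest.Agent.R273.UCov_914
open Crest.Agent.R273.Kah_333 Crest.Agent.R273.Vol_333
open Crest.Agent.R273.Fock_243
open Crest.Agent.R273.RMan4_798 (pullKah)
open Crest.Agent.T223.Hm (ix ix_mem)
open Crest.Agent.X261.Fam
open Crest.Agent.X261.Cov.A Crest.Agent.X261.Cov.D
open Crest.Agent.X261.Rel.Act (Rep Act)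

noncomputable section

variable {n q : ℕ} {X : Type} [TopologicalSpace X] {A : Atl n X} {G : Type} [Group G]

/-- continuous approximations of the indicator of a compact set -/
theorem exists_seq {U : Set (Cn q)} (hU : IsCompact U) : ∃ (ψ : ℕ → Cn q → ℝ) (R : ℝ),
    (∀ k, Continuous (ψ k)) ∧ (∀ k t, 0 ≤ ψ k t) ∧ (∀ k t, ψ k t ≤ 1) ∧ (∀ k t, ψ k t ≤ ψ 0 t) ∧
    (∀ k, ∀ t ∈ U, ψ k t = 1) ∧ (∀ k t, R < ‖t‖ → ψ k t = 0) ∧
    (∀ t ∉ U, ∀ᶠ k in atTop, ψ k t = 0) ∧
    Tendsto (fun k => ∫ t, ψ k t) atTop (𝓝 (volume U).toReal) := by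
  rcases U.eq_empty_or_nonempty with rfl | hne
  · exact ⟨fun _ _ => 0, 0, fun _ => continuous_const, fun _ _ => le_rfl, fun _ _ => zero_le_one,
      fun _ _ => le_rfl, fun _ _ h => h.elim, fun _ _ _ => rfl,
      fun _ _ => Eventually.of_forall fun _ => rfl, by simp⟩
  obtain ⟨R, hR⟩ := hU.isBounded.exists_norm_le
  set ψ : ℕ → Cn q → ℝ := fun k t => max 0 (1 - (k + 1) * Metric.infDist t U) with hψ
  have hc : ∀ k, Continuous (ψ k) := fun k =>
    continuous_const.max (continuous_const.sub (continuous_const.mul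
      (Metric.continuous_infDist_pt U)))
  have h0 : ∀ k t, 0 ≤ ψ k t := fun k t => le_max_left _ _
  have hd : ∀ (k : ℕ) t, Metric.infDist t U ≤ (k + 1) * Metric.infDist t U := fun k t =>
    le_mul_of_one_le_left Metric.infDist_nonneg (by linarith [(Nat.cast_nonneg k : (0 : ℝ) ≤ k)])
  have h1 : ∀ k t, ψ k t ≤ ψ 0 t := fun k t => max_le_max le_rfl (by
    have := hd k t
    simp only [Nat.cast_zero, zero_add, one_mul]
    linarith)
  have h2 : ∀ k, ∀ t ∈ U, ψ k t = 1 := fun k t ht => by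
    simp [hψ, Metric.infDist_zero_of_mem ht]
  have h3 : ∀ k t, R + 1 < ‖t‖ → ψ k t = 0 := fun k t ht => by
    obtain ⟨s, hs, h4⟩ := hU.exists_infDist_eq_dist hne t
    have h5 := norm_sub_norm_le t s
    have h6 := hR s hs
    have h7 := hd k t
    rw [← dist_eq_norm, ← h4] at h5
    exact max_eq_left (by linarith)
  have h4 : ∀ t ∉ U, ∀ᶠ k in atTop, ψ k t = 0 := fun t ht => by
    have hp := (hU.isClosed.notMem_iff_infDist_pos hne).1 ht
    filter_upwards [(tendsto_natCast_atTop_atTop (R := ℝ)).eventually_ge_atTop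
      (1 / Metric.infDist t U)] with k hk
    rw [div_le_iff₀ hp] at hk
    exact max_eq_left (by nlinarith)
  refine ⟨ψ, R + 1, hc, h0, fun k t => max_le zero_le_one (by
    have := (Metric.infDist_nonneg (x := t) (s := U)).trans (hd k t)
    linarith), h1, h2, h3, h4, ?_⟩
  have h5 : (volume U).toReal = ∫ t, U.indicator (fun _ => (1 : ℝ)) t := by
    rw [integral_indicator hU.measurableSet]; simp [Measure.real]
  rw [h5]
  refine tendsto_integral_of_dominated_convergence (ψ 0) (fun k => (hc k).aestronglyMeasurable)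
    ((hc 0).integrable_of_hasCompactSupport (HasCompactSupport.intro
      (isCompact_closedBall 0 (R + 1)) fun t ht => h3 0 t (by simpa using ht)))
    (fun k => ae_of_all _ fun t => by rw [Real.norm_of_nonneg (h0 k t)]; exact h1 k t)
    (ae_of_all _ fun t => ?_)
  by_cases ht : t ∈ U
  · simp only [h2 _ t ht, indicator_of_mem ht, tendsto_const_nhds]
  · rw [indicator_of_notMem ht]
    exact tendsto_const_nhds.congr' ((h4 t ht).mono fun k hk => hk.symm)

variable {H : Type*} [NormedAddCommGroup H] [InnerProductSpace ℂ H]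

theorem n2_add_le {g : Mt n} (hg : g.PosDef) (S T : FI n → H) {t : ℝ} (ht : 0 < t) :
    n2 g (S + T) ≤ (1 + t) * n2 g S + (1 + 1 / t) * n2 g T := by
  have hp := gam_psd hg.inv
  have h1 := en_add_smul hp.1 S T 1
  rw [Complex.ofReal_one, one_smul] at h1
  have h2 := (Complex.re_le_norm _).trans (norm_ip_le hp T S (1 / t) (by positivity))
  have h3 : en (Gam g⁻¹) (S + T) ≤ (1 + t) * en (Gam g⁻¹) S + (1 + 1 / t) * en (Gam g⁻¹) T := by
    have e : 1 / (2 * (1 / t)) = t / 2 := by field_simp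
    rw [e] at h2
    linarith
  rw [n2_eq hg, n2_eq hg, n2_eq hg]
  have := mul_le_mul_of_nonneg_left h3 (Fam.det_re_pos hg).le
  linarith

variable {D : MonD A G} {M : Subgroup G} {a : D.cov G → Cn q} {r : Rep M H}
variable {T T' B : A.ι → G → Cn n → FI n → H}

theorem re_dP (K : Kah A) (φ : D.cov G → ℝ) (i : A.ι) (v : G) (z : Cn n) :
    (dP D K φ T T i v z).re = Fam.rd D φ i v z * n2 (K.g i ((A.e i).symm z)) (T i v z) :=
  Complex.re_ofReal_mul _ _

variable [Finite A.ι] [Countable G] [T2Space X]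

theorem IM_add_le (K : Kah A) (hd : Dat D M a) (h : Fm D M r T) (h' : Fm D M r T')
    (hB : Fm D M r B) (he : ∀ i v, ∀ z ∈ (A.e i).target, T' i v z = T i v z + B i v z)
    {φ : D.cov G → ℝ} (hφ : Continuous φ) (h0 : ∀ e, 0 ≤ φ e)
    (hi : ∀ m ∈ M, ∀ e, φ (m • e) = φ e) {R : ℝ} (hs : ∀ e, R < ‖a e‖ → φ e = 0) {t : ℝ}
    (ht : 0 < t) : (IM D K M (dP D K φ T' T')).re ≤
      (1 + t) * (IM D K M (dP D K φ T T)).re + (1 + 1 / t) * (IM D K M (dP D K φ B B)).re := by
  have dT := den_p2 (a := a) K h h hφ hi hs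
  have dB := den_p2 (a := a) K hB hB hφ hi hs
  have h1 := re_IM_mono K hd (den_p2 K h' h' hφ hi hs)
    ((dT.smul (1 + t : ℝ)).add (dB.smul (1 + 1 / t : ℝ))) fun i v z hz => by
      have h3 : 0 ≤ Fam.rd D φ i v z := h0 _
      have h2 := mul_le_mul_of_nonneg_left (n2_add_le (gr_pos K i hz) (T i v z) (B i v z) ht) h3
      rw [Complex.add_re, Complex.re_ofReal_mul, Complex.re_ofReal_mul, re_dP, re_dP, re_dP,
        he i v z hz]
      refine h2.trans (le_of_eq ?_)
      simp only [gr]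
      ring
  rwa [IM_add K hd (dT.smul _) (dB.smul _), IM_smul, IM_smul, Complex.add_re,
    Complex.re_ofReal_mul, Complex.re_ofReal_mul] at h1

theorem le_of_one_add {x y : ℝ} (h : ∀ t : ℝ, 0 < t → x ≤ (1 + t) * y) : x ≤ y := by
  have h1 : Tendsto (fun t : ℝ => (1 + t) * y) (𝓝[>] 0) (𝓝 ((1 + 0) * y)) :=
    (((continuous_const.add continuous_id).mul continuous_const).tendsto 0).mono_left
      nhdsWithin_le_nhds
  rw [add_zero, one_mul] at h1
  exact ge_of_tendsto h1 (eventually_nhdsWithin_of_forall h)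

/-- the weighted energy passes to the limit -/
theorem lim_IM [CompactSpace X] (K : Kah A) (P : Part A) (hd : Dat D M a) (h : Fm D M r T)
    {W : ℕ → A.ι → G → Cn n → FI n → H} (hW : ∀ k, Fm D M r (W k))
    (hl : ∀ i v, ∀ Kc ⊆ (A.e i).target, IsCompact Kc → ∀ I,
      Tendsto (fun k => ∫ z in Kc, ‖W k i v z I - T i v z I‖ ^ 2) atTop (𝓝 0))
    {φ : D.cov G → ℝ} (hφ : Continuous φ) (h0 : ∀ e, 0 ≤ φ e)
    (hi : ∀ m ∈ M, ∀ e, φ (m • e) = φ e) {R : ℝ} (hs : ∀ e, R < ‖a e‖ → φ e = 0) {c : ℝ}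
    (hc : Tendsto (fun k => (IM D K M (dP D K φ (W k) (W k))).re) atTop (𝓝 c)) :
    (IM D K M (dP D K φ T T)).re = c := by
  have b1 := (Complex.continuous_re.tendsto 0).comp
    (tend_n2 K P hd (fun k => (hW k).sub h) hl hφ hi hs)
  have b2 := (Complex.continuous_re.tendsto 0).comp
    (tend_n2 K P hd (fun k => h.sub (hW k)) (fun i v Kc hK hc I => by
      simpa only [Pi.sub_apply, norm_sub_rev] using hl i v Kc hK hc I) hφ hi hs)
  rw [Complex.zero_re] at b1 b2
  refine le_antisymm (le_of_one_add fun t ht => ?_) (le_of_one_add fun t ht => ?_)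
  · have h1 := (hc.const_mul (1 + t)).add (b2.const_mul (1 + 1 / t))
    rw [mul_zero, add_zero] at h1
    exact ge_of_tendsto' h1 fun k => IM_add_le K hd (hW k) h (h.sub (hW k))
      (fun i v z _ => by abel) hφ h0 hi hs ht
  · have h1 := (b1.const_mul (1 + 1 / t)).const_add ((1 + t) * (IM D K M (dP D K φ T T)).re)
    rw [mul_zero, add_zero] at h1
    exact le_of_tendsto_of_tendsto' hc h1 fun k => IM_add_le K hd h (hW k) ((hW k).sub h)
      (fun i v z _ => by abel) hφ h0 hi hs ht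

attribute [local instance] mZ bZ cZ

/-- a compact piece of a sheet of the quotient covering -/
def Zp (D : MonD A G) (M : Subgroup G) (j : A.ι) (v : G) (Kc : Set (Cn n)) :
    Set (D.cov (G ⧸ M)) := (fun z => D.pt j (v : G ⧸ M) ((A.e j).symm z)) '' Kc

theorem Zp_cpt (j : A.ι) (v : G) {Kc : Set (Cn n)} (hc : IsCompact Kc)
    (hK : Kc ⊆ (A.e j).target) : IsCompact (Zp D M j v Kc) :=
  hc.image_of_continuousOn (((D.continuousOn_pt j _).comp (A.e j).continuousOn_symm
    fun _ hz => (A.e j).map_target hz).mono hK)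

theorem int_piece (K : Kah A) {R : ℝ} {Φ : A.ι → G → Cn n → ℂ} (h : Den D M a R Φ) (j : A.ι)
    (v : G) {Kc : Set (Cn n)} (hc : IsCompact Kc) (hK : Kc ⊆ (A.e j).target) :
    ∫ e in Zp D M j v Kc, gl D K M Φ e ∂mu D K M = ∫ z in Kc, Φ j v z := by
  have hm := (Zp_cpt (D := D) (M := M) j v hc hK).measurableSet
  have h1 := setIntegral_chart (volK (pullKah D (G ⧸ M) K)) (j, (v : G ⧸ M))
    ((h.continuous_gl K).aestronglyMeasurable.indicator hm)
  have h2 : Zp D M j v Kc ⊆ ((D.atl (G ⧸ M)).e (j, (v : G ⧸ M))).source := by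
    rintro _ ⟨z, hz, rfl⟩
    exact D.pt_mem_sheet _ ((A.e j).map_target (hK hz))
  rw [setIntegral_indicator hm, inter_eq_self_of_subset_right h2] at h1
  refine h1.trans ?_
  have h6 : ∫ z in Kc, Φ j v z = ∫ z in (A.e j).target, Kc.indicator (Φ j v) z := by
    rw [setIntegral_indicator hc.measurableSet, inter_eq_self_of_subset_right hK]
  rw [h6]
  refine setIntegral_congr_fun (A.e j).open_target.measurableSet fun z hz => ?_
  have hx := (A.e j).map_target hz
  change (K.g j ((A.e j).symm z)).det.re • (Zp D M j v Kc).indicator (gl D K M Φ)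
    (D.pt j (v : G ⧸ M) ((A.e j).symm z)) = _
  by_cases h3 : z ∈ Kc
  · rw [indicator_of_mem h3, indicator_of_mem (s := Zp D M j v Kc) ⟨z, h3, rfl⟩, h.gl_pt K v hx,
      (A.e j).right_inv hz, Complex.real_smul, ← det_ofReal (K.pos j _ hx),
      mul_div_cancel₀ _ (K.pos j _ hx).det_pos.ne']
  · rw [indicator_of_notMem h3, indicator_of_notMem, smul_zero]
    rintro ⟨y, hy, h4⟩
    have h5 : (A.e j).symm y = (A.e j).symm z := congrArg D.pr h4
    exact h3 ((A.e j).symm.injOn (hK hy) hz h5 ▸ hy)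

theorem re_piece (K : Kah A) (hd : Dat D M a) {R : ℝ} {Φ : A.ι → G → Cn n → ℂ}
    (h : Den D M a R Φ) (j : A.ι) (v : G) {Kc : Set (Cn n)} (hc : IsCompact Kc)
    (hK : Kc ⊆ (A.e j).target) :
    ∫ e in Zp D M j v Kc, (gl D K M Φ e).re ∂mu D K M = ∫ z in Kc, (Φ j v z).re :=
  (integral_re (h.integrable K hd).integrableOn).trans ((congrArg Complex.re
    (int_piece K h j v hc hK)).trans
      (integral_re (((h.cont j v).mono hK).integrableOn_compact hc)).symm)

theorem re_gl_dP (K : Kah A) (φ : D.cov G → ℝ) (e : D.cov (G ⧸ M)) :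
    (gl D K M (dP D K φ T T) e).re = φ (D.pt (ix A (D.pr e)) (cd D e).out (D.pr e)) *
      (n2 (K.g (ix A (D.pr e)) (D.pr e))
        (T (ix A (D.pr e)) (cd D e).out (A.e (ix A (D.pr e)) (D.pr e))) /
      (K.g (ix A (D.pr e)) (D.pr e)).det.re) := by
  rw [re_gl, re_dP, rd_pt D φ _ (ix_mem _), (A.e _).left_inv (ix_mem _), mul_div_assoc]

theorem q_nonneg (K : Kah A) (x : X) (S : FI n → H) :
    0 ≤ n2 (K.g (ix A x) x) S / (K.g (ix A x) x).det.re :=
  div_nonneg (n2_nonneg (K.pos _ _ (ix_mem _)) _) (Fam.det_re_pos (K.pos _ _ (ix_mem _))).le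

/-- the exact formula for the fibre energy -/
def Exa (D : MonD A G) (K : Kah A) (M : Subgroup G) (a : D.cov G → Cn q)
    (T : A.ι → G → Cn n → FI n → H) (E : ℝ) : Prop :=
  ∀ ψ : Cn q → ℝ, Continuous ψ → (∀ t, 0 ≤ ψ t) → ∀ R : ℝ, (∀ t, R < ‖t‖ → ψ t = 0) →
    (IM D K M (dP D K (fun e => ψ (a e)) T T)).re = E * ∫ t, ψ t

theorem den_a (K : Kah A) (hd : Dat D M a) (h : Fm D M r T) {ψ : Cn q → ℝ} (hψ : Continuous ψ)
    {R : ℝ} (hs : ∀ t, R < ‖t‖ → ψ t = 0) : Den D M a R (dP D K (fun e => ψ (a e)) T T) :=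
  den_p2 K h h (φ := fun e => ψ (a e)) (hψ.comp (sm_cont (sm_a hd)))
    (fun m hm e => by rw [hd.inv m hm]) fun _ he => hs _ he

theorem bd_of (K : Kah A) (hd : Dat D M a) {S : A.ι → G → X → FI n → H}
    (h : Fm D M r fun i v z => S i v ((A.e i).symm z)) {E : ℝ}
    (hE : Exa D K M a (fun i v z => S i v ((A.e i).symm z)) E) : Bd D K a S E := by
  intro i v Kc hK hc
  obtain ⟨ψ, R, h1, h2, -, -, h5, h6, -, h8⟩ :=
    exists_seq (hc.image_of_continuousOn ((hol_rd hd i v).continuousOn.mono hK))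
  refine ge_of_tendsto' (h8.const_mul E) fun k => ?_
  have dT := den_a K hd h (h1 k) (h6 k)
  rw [← hE (ψ k) (h1 k) (h2 k) R (h6 k), re_IM K hd dT]
  refine le_trans (le_of_eq ?_) (setIntegral_le_integral (s := Zp D M i v Kc)
    (dT.integrable K hd).re (ae_of_all _ fun e => ?_))
  · refine Eq.trans ?_ (re_piece K hd dT i v hc hK).symm
    refine setIntegral_congr_fun hc.measurableSet fun z hz => ?_
    have h9 : Fam.rd D (fun e => ψ k (a e)) i v z = 1 := h5 k _ (mem_image_of_mem _ hz)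
    simp only [re_dP, h9, one_mul]
  · change 0 ≤ (gl D K M _ e).re
    rw [re_gl_dP]
    exact mul_nonneg (h2 k _) (q_nonneg K _ _)

theorem lo_of (K : Kah A) (hd : Dat D M a) {S : A.ι → G → X → FI n → H}
    (h : Fm D M r fun i v z => S i v ((A.e i).symm z)) {E : ℝ}
    (hE : Exa D K M a (fun i v z => S i v ((A.e i).symm z)) E) : FamG.Lo D K M a S E := by
  intro T Kc hK U hU hT
  obtain ⟨ψ, R, h1, h2, h3, h4, h5, h6, h7, h8⟩ := exists_seq hU
  have dT := fun k => den_a K hd h (h1 k) (h6 k)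
  set g : ℕ → D.cov (G ⧸ M) → ℝ := fun k e => (gl D K M (dP D K (fun e => ψ k (a e))
    (fun i v z => S i v ((A.e i).symm z)) fun i v z => S i v ((A.e i).symm z)) e).re with hg
  have gi : ∀ k, Integrable (g k) (mu D K M) := fun k => ((dT k).integrable K hd).re
  have g0 : ∀ k e, 0 ≤ g k e := fun k e => by
    simp only [hg, re_gl_dP]
    exact mul_nonneg (h2 k _) (q_nonneg K _ _)
  have g1 : ∀ k e, g k e ≤ g 0 e := fun k e => by
    simp only [hg, re_gl_dP]
    exact mul_le_mul_of_nonneg_right (h4 k _) (q_nonneg K _ _)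
  set Z : Set (D.cov (G ⧸ M)) := ⋃ p ∈ T, Zp D M p.1 p.2 (Kc p.1) with hZ
  have hm : ∀ p : A.ι × G, MeasurableSet (Zp D M p.1 p.2 (Kc p.1)) := fun p =>
    (Zp_cpt p.1 p.2 (hK p.1).1 (hK p.1).2).measurableSet
  have hZm : MeasurableSet Z := Finset.measurableSet_biUnion _ fun p _ => hm p
  have t1 : Tendsto (fun k => ∫ e in Zᶜ, g k e ∂mu D K M) atTop (𝓝 0) := by
    have := tendsto_integral_of_dominated_convergence (μ := (mu D K M).restrict Zᶜ) (F := g)
      (f := fun _ => 0) (g 0) (fun k => (gi k).integrableOn.aestronglyMeasurable)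
      (gi 0).integrableOn
      (fun k => ae_of_all _ fun e => by rw [Real.norm_of_nonneg (g0 k e)]; exact g1 k e)
      ((ae_restrict_mem hZm.compl).mono fun e he => ?_)
    · simpa using this
    have hn : a (D.pt (ix A (D.pr e)) (cd D e).out (D.pr e)) ∉ U := fun hU => he (by
      obtain ⟨m, hm, p, hp, z, hz, h9⟩ := hT _ hU
      have hc : Cpt D D (QuotientGroup.mk : G → G ⧸ M) := fun _ _ _ _ => rfl
      have h10 := congrArg (cmap D D (QuotientGroup.mk : G → G ⧸ M)) h9
      rw [D.deck_pt, cmap_pt hc, cmap_pt hc, QuotientGroup.mk_mul_of_mem _ (M.inv_mem hm),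
        QuotientGroup.out_eq'] at h10
      refine mem_biUnion hp ⟨z, hz, h10.symm.trans ?_⟩
      exact sec_cd D e)
    refine tendsto_const_nhds.congr' ((h7 _ hn).mono fun k hk => ?_)
    simp only [hg, re_gl_dP, hk, zero_mul]
  have t2 := t1.const_add (∑ p ∈ T, ∫ z in Kc p.1,
    n2 (K.g p.1 ((A.e p.1).symm z)) (S p.1 p.2 ((A.e p.1).symm z)))
  rw [add_zero] at t2
  refine le_of_tendsto_of_tendsto' (h8.const_mul E) t2 fun k => ?_
  rw [← hE (ψ k) (h1 k) (h2 k) R (h6 k), re_IM K hd (dT k)]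
  change ∫ e, g k e ∂mu D K M ≤ _
  rw [← integral_add_compl hZm (gi k)]
  refine add_le_add_left ?_ _
  have h9 : ∫ e in Z, g k e ∂mu D K M ≤
      ∑ p ∈ T, ∫ e in Zp D M p.1 p.2 (Kc p.1), g k e ∂mu D K M := by
    simp only [← integral_indicator (hm _)]
    rw [← integral_indicator hZm, ← integral_finsetSum _ fun p _ => (gi k).indicator (hm p)]
    refine integral_mono ((gi k).indicator hZm)
      (integrable_finsetSum _ fun p _ => (gi k).indicator (hm p)) fun e => ?_
    have h10 : ∀ p ∈ T, 0 ≤ (Zp D M p.1 p.2 (Kc p.1)).indicator (g k) e := fun p _ =>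
      indicator_nonneg (fun e _ => g0 k e) e
    by_cases he : e ∈ Z
    · obtain ⟨p, hp, h11⟩ := mem_iUnion₂.1 he
      refine le_trans (le_of_eq ?_) (Finset.single_le_sum h10 hp)
      rw [indicator_of_mem he, indicator_of_mem h11]
    · rw [indicator_of_notMem he]
      exact Finset.sum_nonneg h10
  refine h9.trans (Finset.sum_le_sum fun p _ => ?_)
  refine (re_piece K hd (dT k) p.1 p.2 (hK p.1).1 (hK p.1).2).le.trans ?_
  refine setIntegral_mono_on ((Complex.continuous_re.comp_continuousOn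
    (((dT k).cont p.1 p.2).mono (hK p.1).2)).integrableOn_compact (hK p.1).1)
    ((cont_n2 K p.1 (hK p.1).2 fun I => (h.cont p.1 p.2 I).mono (hK p.1).2).integrableOn_compact
      (hK p.1).1) (hK p.1).1.measurableSet fun z hz => ?_
  rw [re_dP]
  exact mul_le_of_le_one_left (n2_nonneg (gr_pos K p.1 ((hK p.1).2 hz)) _) (h3 k _)

/-- the exact formula for the limit form -/
theorem ex_S [CompactSpace X] (K : Kah A) (P : Part A) (hd : Dat D M a)
    {S : A.ι → G → X → FI n → H} (h : Fm D M r fun i v z => S i v ((A.e i).symm z)) {b : M → H}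
    {f : ℕ → D.cov G → H} (hf : ∀ k, Eqv D M r b (f k)) (hl : Lm D a f S) {E : ℝ}
    (hE : ∀ ψ : Cn q → ℝ, Continuous ψ → HasCompactSupport ψ → Tendsto (fun k =>
      (IM D K M fun i v z => ((ψ (Fam.rd D a i v z) * e0 (K.g i ((A.e i).symm z))
        (Cf (Fam.rd D a i v) z) (th (Fam.rd D (f k) i v) z) : ℝ) : ℂ)).re) atTop
        (𝓝 (E * ∫ x, ψ x))) : Exa D K M a (fun i v z => S i v ((A.e i).symm z)) E := by
  intro ψ hψ h0 R hs
  have s1 : ∀ k, Fm D M r fun i v => Sl (Fam.rd D a i v) (Fam.rd D (f k) i v) := fun k =>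
    fm_Sl hd (hf k).sm fun m => ⟨b m, (hf k).eqv m⟩
  refine lim_IM K P hd h s1 hl (φ := fun e => ψ (a e)) (hψ.comp (sm_cont (sm_a hd)))
    (fun e => h0 _) (fun m hm e => by rw [hd.inv m hm]) (R := R) (fun e he => hs _ he) ?_
  refine (hE ψ hψ (HasCompactSupport.intro (isCompact_closedBall 0 R)
    fun t ht => hs t (by simpa using ht))).congr fun k => ?_
  congr 1
  refine IM_congr K fun i v z hz => ?_
  have hp := K.pos i _ ((A.e i).map_target hz)
  rw [dP, Complex.ofReal_mul, e0_eq_vI hp, Complex.ofReal_mul, ← det_ofReal hp,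
    ← ip_real (gam_psd hp.inv).1]
  rfl

/-- **`Bd` and `Lo`** from the exact formula -/
theorem bdlo_of [CompactSpace X] (K : Kah A) (P : Part A) (hd : Dat D M a) {H : Type}
    [NormedAddCommGroup H] [InnerProductSpace ℂ H] {r : Rep M H} {b : M → H}
    {S : A.ι → G → X → FI n → H} (h : IsMin D K M a r b S) {f : ℕ → D.cov G → H}
    (hf : ∀ k, Eqv D M r b (f k)) (hl : Lm D a f S) {E : ℝ}
    (hE : ∀ ψ : Cn q → ℝ, Continuous ψ → HasCompactSupport ψ → Tendsto (fun k =>
      (IM D K M fun i v z => ((ψ (Fam.rd D a i v z) * e0 (K.g i ((A.e i).symm z))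
        (Cf (Fam.rd D a i v) z) (th (Fam.rd D (f k) i v) z) : ℝ) : ℂ)).re) atTop
        (𝓝 (E * ∫ x, ψ x))) : Bd D K a S E ∧ FamG.Lo D K M a S E :=
  ⟨bd_of K hd (fm_min hd h) (ex_S K P hd (fm_min hd h) hf hl hE),
    lo_of K hd (fm_min hd h) (ex_S K P hd (fm_min hd h) hf hl hE)⟩

/-- existence with the two bounds -/
theorem fam2_of (hx : Fam69.ExStmt) [CompactSpace X] (P : Part A) (K : Kah A) (hd : Dat D M a)
    {H : Type} [NormedAddCommGroup H] [InnerProductSpace ℂ H] [CompleteSpace H] (α : Act M H) :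
    ∃ (S : A.ι → G → X → FI n → H) (E : ℝ), 0 ≤ E ∧ IsMin D K M a α.toRep α.b S ∧
      Bd D K a S E ∧ FamG.Lo D K M a S E := by
  obtain ⟨f, S, E, h0, hf, hl, h, hE⟩ := hx n q X A P K G D M a hd H α
  exact ⟨S, E, h0, h, bdlo_of K P hd h hf hl hE⟩

theorem famStmt_of (hx : Fam69.ExStmt) : FamStmt := by
  intro n q X _ _ _ A _ P K G _ _ D M a hd H _ _ _
  refine ⟨fun α => ?_, fun r b S S' h h' => uniq P K hd h h'⟩
  obtain ⟨S, E, h0, h, hB, -⟩ := fam2_of hx P K hd α
  exact ⟨S, E, h0, h, hB⟩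

end

end Crest.Agent.X261.Fam77
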