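import Crest.Agent.X261.Fam.Defs

/-!
# Row 261, package FAM (helper77): the bound `Bd` on the fibre energy

* `n2_eq`, `n2_nonneg`, `n2_smul`, `n2_iso`, `sq_le_n2`, `n2_le_sq` : the density `n2`;
* `exists_lo`, `exists_hi` : comparison with the Euclidean norm on compact sets of a chart;
* `vol_aff` : the volume of an affine image;
* `bd_nat` : `Bd` is natural; `bd_real`, `bd_enn`, `bd_up` : bounds for the components.
-/

set_option autoImplicit false
set_option linter.unusedSectionVars false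

open Set Filter Topology MeasureTheory Matrix
open scoped ComplexConjugate ComplexOrder InnerProductSpace ContDiff ENNReal

namespace Crest.Agent.X261.Fam77

open Crest.Agent.R275.Geo Crest.Agent.R273.UCov_914 Crest.Agent.R273.Kah_333
open Crest.Agent.R273.Fock_243
open Crest.Agent.X261.Fam

noncomputable section

universe u

variable {n q : ℕ} {X : Type} [TopologicalSpace X] {A : Atl n X} {G : Type} [Group G]

section pw

variable {H : Type*} [NormedAddCommGroup H] [InnerProductSpace ℂ H] {g : Mt n}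

theorem n2_eq (hg : g.PosDef) (S : FI n → H) : n2 g S = g.det.re * en (Gam g⁻¹) S := by
  rw [n2, p2, det_ofReal hg, Complex.re_ofReal_mul, Complex.ofReal_re, en]

theorem n2_nonneg (hg : g.PosDef) (S : FI n → H) : 0 ≤ n2 g S := by
  rw [n2_eq hg]
  exact mul_nonneg (det_re_pos hg).le (en_nonneg (gam_psd hg.inv) S)

theorem n2_smul (g : Mt n) (c : ℂ) (S : FI n → H) : n2 g (c • S) = ‖c‖ ^ 2 * n2 g S := by
  have h : p2 g (c • S) (c • S) = ((‖c‖ ^ 2 : ℝ) : ℂ) * p2 g S S := by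
    rw [p2, p2, ip_smul_left, ip_smul_right, Complex.ofReal_pow, ← Complex.conj_mul']
    ring
  rw [n2, n2, h, Complex.re_ofReal_mul]

theorem n2_iso {H' : Type*} [NormedAddCommGroup H'] [InnerProductSpace ℂ H'] (L : H →ₗᵢ[ℂ] H')
    (g : Mt n) (S : FI n → H) : n2 g (fun I => L (S I)) = n2 g S := by
  rw [n2, n2, p2, p2, ip_iso]

theorem n2_zero (g : Mt n) : n2 g (0 : FI n → H) = 0 := by
  simp [n2, p2, ip_eq]

theorem sq_le_n2 (hg : g.PosDef) (S : FI n → H) (I : FI n) :
    g.det.re * ‖S I‖ ^ 2 ≤ (Gam g I I).re * n2 g S := by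
  obtain ⟨N, μ, h⟩ := exists_NF hg (0 : Mr n 0)
  have h1 : S = ac (Gam N⁻¹) (ac (Gam N) S) := by
    rw [← ac_mul, ← Gam_mul, Matrix.nonsing_inv_mul _ h.det_ne.isUnit, Gam_one, ac_one]
  have h2 := norm_ac_sq_le (Gam N⁻¹) (ac (Gam N) S) I
  rw [← h1, Gam_ct, ← Gam_mul, h.inv_mul_ct, ← en_gram, Gam_ct, ← Gam_mul, h.inv] at h2
  rw [n2_eq hg, mul_left_comm]
  exact mul_le_mul_of_nonneg_left h2 (det_re_pos hg).le

theorem eq_zero_of_n2 (hg : g.PosDef) {S : FI n → H} (h : n2 g S ≤ 0) : S = 0 := by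
  funext I
  have h1 := sq_le_n2 hg S I
  rw [le_antisymm h (n2_nonneg hg S), mul_zero] at h1
  have h2 : ‖S I‖ ^ 2 ≤ 0 := by
    by_contra h3
    exact absurd h1 (not_le.2 (mul_pos (det_re_pos hg) (not_le.1 h3)))
  simpa using le_antisymm h2 (sq_nonneg _)

theorem n2_le_sq {z : ℝ} (hz : ∀ I J, ‖g.det * Gam g⁻¹ I J‖ ≤ z) (S : FI n → H) :
    n2 g S ≤ z * Fintype.card (FI n) * sq S := by
  rw [n2, p2, ← ip_smul]
  exact (Complex.re_le_norm _).trans (norm_ip_le_ent (fun I J => by simpa using hz I J) S)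

end pw

theorem cont_Gam (I J : FI n) : Continuous fun B : Mt n => Gam B I J := by
  unfold Gam
  split_ifs with h
  · exact (continuous_id.matrix_submatrix _ _).matrix_det
  · exact continuous_const

/-- the metric read in a chart -/
def gr (K : Kah A) (i : A.ι) (z : Cn n) : Mt n := K.g i ((A.e i).symm z)

theorem gr_pos (K : Kah A) (i : A.ι) {z : Cn n} (hz : z ∈ (A.e i).target) : (gr K i z).PosDef :=
  K.pos i _ ((A.e i).map_target hz)

theorem cont_gr (K : Kah A) (i : A.ι) : ContinuousOn (gr K i) (A.e i).target :=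
  continuousOn_pi.2 fun a => continuousOn_pi.2 fun b => (K.sm i a b).continuousOn

theorem cont_det (K : Kah A) (i : A.ι) :
    ContinuousOn (fun z => (gr K i z).det) (A.e i).target :=
  (continuous_id.matrix_det).comp_continuousOn (cont_gr K i)

theorem cont_inv (K : Kah A) (i : A.ι) : ContinuousOn (fun z => (gr K i z)⁻¹) (A.e i).target := by
  have h : ContinuousOn (fun z => ((gr K i z).det)⁻¹ • (gr K i z).adjugate) (A.e i).target :=
    ((cont_det K i).inv₀ fun z hz => (gr_pos K i hz).det_pos.ne').smul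
      ((continuous_id.matrix_adjugate).comp_continuousOn (cont_gr K i))
  refine h.congr fun z _ => ?_
  simp only [Matrix.inv_def, Ring.inverse_eq_inv']

theorem cont_p2 {H : Type*} [NormedAddCommGroup H] [InnerProductSpace ℂ H] (K : Kah A) (i : A.ι)
    {U : Set (Cn n)} (hU : U ⊆ (A.e i).target) {S S' : Cn n → FI n → H}
    (hS : ∀ I, ContinuousOn (fun z => S z I) U) (hS' : ∀ I, ContinuousOn (fun z => S' z I) U) :
    ContinuousOn (fun z => p2 (K.g i ((A.e i).symm z)) (S z) (S' z)) U := by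
  simp only [p2, ip_eq]
  refine ((cont_det K i).mono hU).mul (continuousOn_finsetSum _ fun I _ =>
    continuousOn_finsetSum _ fun J _ => ContinuousOn.mul ?_ (ContinuousOn.inner (𝕜 := ℂ) (hS I) (hS' J)))
  exact (cont_Gam I J).comp_continuousOn ((cont_inv K i).mono hU)

theorem cont_n2 {H : Type*} [NormedAddCommGroup H] [InnerProductSpace ℂ H] (K : Kah A) (i : A.ι)
    {U : Set (Cn n)} (hU : U ⊆ (A.e i).target) {S : Cn n → FI n → H}
    (hS : ∀ I, ContinuousOn (fun z => S z I) U) :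
    ContinuousOn (fun z => n2 (K.g i ((A.e i).symm z)) (S z)) U :=
  Complex.continuous_re.comp_continuousOn (cont_p2 K i hU hS hS)

/-- the components are bounded by the density -/
theorem exists_lo (K : Kah A) (i : A.ι) {N : Set (Cn n)} (hN : IsCompact N)
    (hNt : N ⊆ (A.e i).target) : ∃ C : ℝ, 0 < C ∧ ∀ z ∈ N,
      ∀ {H : Type u} [NormedAddCommGroup H] [InnerProductSpace ℂ H] (S : FI n → H) (I : FI n),
        ‖S I‖ ^ 2 ≤ C * n2 (K.g i ((A.e i).symm z)) S := by
  have hc : ContinuousOn (fun z (I : FI n) => (Gam (gr K i z) I I).re / (gr K i z).det.re) N := by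
    refine continuousOn_pi.2 fun I => ContinuousOn.div ?_ ?_ fun z hz =>
      (det_re_pos (gr_pos K i (hNt hz))).ne'
    · exact Complex.continuous_re.comp_continuousOn
        ((cont_Gam I I).comp_continuousOn ((cont_gr K i).mono hNt))
    · exact Complex.continuous_re.comp_continuousOn ((cont_det K i).mono hNt)
  obtain ⟨C, hC⟩ := hN.exists_bound_of_continuousOn hc
  refine ⟨max C 1, lt_max_of_lt_right one_pos, fun z hz H _ _ S I => ?_⟩
  have hp := gr_pos K i (hNt hz)
  have h1 : (Gam (gr K i z) I I).re / (gr K i z).det.re ≤ max C 1 :=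
    ((le_abs_self _).trans ((norm_le_pi_norm
      (fun I : FI n => (Gam (gr K i z) I I).re / (gr K i z).det.re) I).trans (hC z hz))).trans
      (le_max_left _ _)
  have h2 := sq_le_n2 hp S I
  have h3 := det_re_pos hp
  have h4 : ‖S I‖ ^ 2 ≤ (Gam (gr K i z) I I).re / (gr K i z).det.re * n2 (gr K i z) S := by
    rw [div_mul_eq_mul_div, le_div_iff₀ h3, mul_comm]
    exact h2
  exact h4.trans (mul_le_mul_of_nonneg_right h1 (n2_nonneg hp S))

/-- the density is bounded by the components -/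
theorem exists_hi (K : Kah A) (i : A.ι) {N : Set (Cn n)} (hN : IsCompact N)
    (hNt : N ⊆ (A.e i).target) : ∃ C : ℝ, 0 < C ∧ ∀ z ∈ N,
      ∀ {H : Type u} [NormedAddCommGroup H] [InnerProductSpace ℂ H] (S : FI n → H),
        n2 (K.g i ((A.e i).symm z)) S ≤ C * ∑ I, ‖S I‖ ^ 2 := by
  have hc : ContinuousOn (fun z (p : FI n × FI n) =>
      (gr K i z).det * Gam (gr K i z)⁻¹ p.1 p.2) N :=
    continuousOn_pi.2 fun p => ((cont_det K i).mono hNt).mul
      ((cont_Gam p.1 p.2).comp_continuousOn ((cont_inv K i).mono hNt))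
  obtain ⟨C, hC⟩ := hN.exists_bound_of_continuousOn hc
  refine ⟨max C 1 * Fintype.card (FI n), mul_pos (lt_max_of_lt_right one_pos)
    (Nat.cast_pos.2 Fintype.card_pos), fun z hz H _ _ S => ?_⟩
  refine n2_le_sq (g := gr K i z) (fun I J => ?_) S
  exact ((norm_le_pi_norm (fun p : FI n × FI n => (gr K i z).det * Gam (gr K i z)⁻¹ p.1 p.2)
    (I, J)).trans (hC z hz)).trans (le_max_left _ _)

/-! ### affine images -/

theorem det_mL (L : Mt q) :
    LinearMap.det (((mL L : Cn q →L[ℂ] Cn q) : Cn q →ₗ[ℂ] Cn q).restrictScalars ℝ) =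
      ‖L.det‖ ^ 2 := by
  rw [LinearMap.det_restrictScalars]
  have h : ((mL L : Cn q →L[ℂ] Cn q) : Cn q →ₗ[ℂ] Cn q) = Matrix.toLpLin 2 2 L := rfl
  rw [h, Matrix.toLpLin_eq_toLin, LinearMap.det_toLin, Algebra.norm_complex_apply,
    Complex.normSq_eq_norm_sq]

theorem vol_aff (L : Mt q) (l : Cn q) (s : Set (Cn q)) :
    volume ((fun t => mL L t + l) '' s) = ENNReal.ofReal (‖L.det‖ ^ 2) * volume s := by
  have h : (fun t => mL L t + l) '' s = (fun t => t + l) ''
      ((((mL L : Cn q →L[ℂ] Cn q) : Cn q →ₗ[ℂ] Cn q).restrictScalars ℝ) '' s) := by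
    rw [image_image]; rfl
  rw [h, image_add_right, measure_preimage_add_right, Measure.addHaar_image_linearMap, det_mL,
    abs_of_nonneg (sq_nonneg _)]

variable {D : MonD A G} {K : Kah A} {a : D.cov G → Cn q}

theorem rd_deck {W : Type*} (f : D.cov G → W) (g : G) (i : A.ι) (v : G) (z : Cn n) :
    Fam.rd D f i (v * g⁻¹) z = f (g • D.pt i v ((A.e i).symm z)) := by
  rw [Fam.rd, D.deck_pt]

theorem rd_aff {g : G} {L : Mt q} {l : Fin q → ℂ}
    (h : ∀ e k, a (g • e) k = ∑ k', L k k' * a e k' + l k) (i : A.ι) (v : G) (z : Cn n) :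
    Fam.rd D a i (v * g⁻¹) z = mL L (Fam.rd D a i v z) + WithLp.toLp 2 l := by
  ext k
  rw [rd_deck, h]
  rfl

theorem vol_deck {g : G} {L : Mt q} {l : Fin q → ℂ}
    (h : ∀ e k, a (g • e) k = ∑ k', L k k' * a e k' + l k) (i : A.ι) (v : G) (s : Set (Cn n)) :
    volume (Fam.rd D a i (v * g⁻¹) '' s) = ENNReal.ofReal (‖L.det‖ ^ 2) * volume (Fam.rd D a i v '' s) := by
  rw [← vol_aff L (WithLp.toLp 2 l), image_image]
  congr 2
  funext z
  exact rd_aff h i v z

section bd

variable {H : Type*} [NormedAddCommGroup H] [InnerProductSpace ℂ H]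
variable {S : A.ι → G → X → FI n → H} {E : ℝ}

/-- **naturality of `Bd`** -/
theorem bd_nat {g : G} {L : Mt q} {l : Fin q → ℂ} (hL : L.det ≠ 0)
    (h : ∀ e k, a (g • e) k = ∑ k', L k k' * a e k' + l k) (hB : Bd D K a S E) :
    Bd D K a (fun i v x => (L.det)⁻¹ • S i (v * g⁻¹) x) E := by
  intro i v Kc hK hc
  have h1 := hB i (v * g⁻¹) Kc hK hc
  rw [vol_deck h, ENNReal.toReal_mul, ENNReal.toReal_ofReal (sq_nonneg _)] at h1
  have hp : 0 < ‖L.det‖ ^ 2 := by positivity
  simp only [n2_smul]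
  rw [integral_const_mul, norm_inv, inv_pow, inv_mul_le_iff₀ hp, mul_left_comm]
  exact h1

/-- naturality when `|det L| = 1` -/
theorem bd_nat_one {g : G} {L : Mt q} {l : Fin q → ℂ} (hL : ‖L.det‖ = 1)
    (h : ∀ e k, a (g • e) k = ∑ k', L k k' * a e k' + l k) (hB : Bd D K a S E) :
    Bd D K a (fun i v x => S i (v * g⁻¹) x) E := by
  intro i v Kc hK hc
  have h1 := hB i (v * g⁻¹) Kc hK hc
  rwa [vol_deck h, hL, one_pow, ENNReal.ofReal_one, one_mul] at h1

theorem bd_smul (c : ℂ) (hB : Bd D K a S E) :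
    Bd D K a (fun i v x => c • S i v x) (‖c‖ ^ 2 * E) := by
  intro i v Kc hK hc
  simp only [n2_smul]
  rw [integral_const_mul, mul_assoc]
  exact mul_le_mul_of_nonneg_left (hB i v Kc hK hc) (sq_nonneg _)

theorem bd_iso {H' : Type*} [NormedAddCommGroup H'] [InnerProductSpace ℂ H'] (L : H →ₗᵢ[ℂ] H')
    (hB : Bd D K a S E) : Bd D K a (fun i v x I => L (S i v x I)) E := by
  intro i v Kc hK hc
  simp only [n2_iso]
  exact hB i v Kc hK hc

theorem bd_mono {E' : ℝ} (hE : E ≤ E') (hB : Bd D K a S E) : Bd D K a S E' := fun i v Kc hK hc =>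
  (hB i v Kc hK hc).trans (mul_le_mul_of_nonneg_right hE ENNReal.toReal_nonneg)

theorem bd_congr {S' : A.ι → G → X → FI n → H}
    (h : ∀ i v, ∀ x ∈ (A.e i).source, S i v x = S' i v x) (hB : Bd D K a S E) :
    Bd D K a S' E := by
  intro i v Kc hK hc
  refine le_of_eq_of_le (setIntegral_congr_fun hc.measurableSet fun z hz => ?_) (hB i v Kc hK hc)
  simp only [h i v _ ((A.e i).map_target (hK hz))]

end bd

/-- **the components are bounded**, real form -/
theorem bd_real (K : Kah A) (i : A.ι) {N : Set (Cn n)} (hN : IsCompact N)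
    (hNt : N ⊆ (A.e i).target) : ∃ C : ℝ, 0 < C ∧
      ∀ {G : Type} [Group G] {D : MonD A G} {q : ℕ} {a : D.cov G → Cn q}
        {H : Type u} [NormedAddCommGroup H] [InnerProductSpace ℂ H]
        {S : A.ι → G → X → FI n → H} {E : ℝ}, Bd D K a S E → ∀ v,
        (∀ I, ContinuousOn (fun z => S i v ((A.e i).symm z) I) N) →
        ∀ Kc ⊆ N, IsCompact Kc → ∀ I, ∫ z in Kc, ‖S i v ((A.e i).symm z) I‖ ^ 2 ≤
          C * E * (volume (Fam.rd D a i v '' Kc)).toReal := by
  obtain ⟨C, hC0, hC⟩ := exists_lo.{u} K i hN hNt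
  refine ⟨C, hC0, fun {G} _ {D q a H} _ _ {S E} hB v hS Kc hK hc I => ?_⟩
  rw [mul_assoc]
  refine le_trans ?_ (mul_le_mul_of_nonneg_left (hB i v Kc (hK.trans hNt) hc) hC0.le)
  rw [← integral_const_mul]
  refine setIntegral_mono_on ((((hS I).mono hK).norm.pow 2).integrableOn_compact hc)
    ((continuousOn_const.mul (cont_n2 K i (hK.trans hNt) fun I => (hS I).mono hK)).integrableOn_compact
      hc) hc.measurableSet fun z hz => hC z (hK hz) _ I

theorem lint_sq {H : Type*} [NormedAddCommGroup H] {f : Cn n → H} {Kc : Set (Cn n)}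
    (hc : IsCompact Kc) (hf : ContinuousOn f Kc) :
    ∫⁻ z in Kc, ‖f z‖ₑ ^ 2 = ENNReal.ofReal (∫ z in Kc, ‖f z‖ ^ 2) := by
  have hi : IntegrableOn (fun z => ‖f z‖ ^ 2) Kc := (hf.norm.pow 2).integrableOn_compact hc
  rw [ofReal_integral_eq_lintegral_ofReal hi (Eventually.of_forall fun z => sq_nonneg _)]
  refine lintegral_congr fun z => ?_
  rw [ENNReal.ofReal_pow (norm_nonneg _), ofReal_norm]

/-- **the components are bounded**, `ℝ≥0∞` form -/
theorem bd_enn (K : Kah A) (i : A.ι) {N : Set (Cn n)} (hN : IsCompact N)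
    (hNt : N ⊆ (A.e i).target) : ∃ C : ℝ, 0 < C ∧
      ∀ {G : Type} [Group G] {D : MonD A G} {q : ℕ} {a : D.cov G → Cn q}
        {H : Type u} [NormedAddCommGroup H] [InnerProductSpace ℂ H]
        {S : A.ι → G → X → FI n → H} {E : ℝ}, Bd D K a S E → ∀ v,
        (∀ I, ContinuousOn (fun z => S i v ((A.e i).symm z) I) N) →
        ∀ Kc ⊆ N, IsCompact Kc → ∀ I, ∫⁻ z in Kc, ‖S i v ((A.e i).symm z) I‖ₑ ^ 2 ≤
          ENNReal.ofReal (C * E) * volume (Fam.rd D a i v '' Kc) := by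
  obtain ⟨C, hC0, hC⟩ := bd_real.{u} K i hN hNt
  refine ⟨C, hC0, fun {G} _ {D q a H} _ _ {S E} hB v hS Kc hK hc I => ?_⟩
  rw [lint_sq hc ((hS I).mono hK)]
  refine (ENNReal.ofReal_le_ofReal (hC hB v hS Kc hK hc I)).trans ?_
  rw [ENNReal.ofReal_mul' ENNReal.toReal_nonneg]
  exact mul_le_mul_right ENNReal.ofReal_toReal_le _

/-- the field `up` of `Rel.Min` (and, for a fixed sheet, the field `bd` of `Gauss.Frm`) -/
theorem bd_up {H : Type*} [NormedAddCommGroup H] [InnerProductSpace ℂ H]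
    {S : A.ι → G → X → FI n → H} {E : ℝ} (hB : Bd D K a S E)
    (hS : ∀ i v I, ContinuousOn (fun z => S i v ((A.e i).symm z) I) (A.e i).target) (i : A.ι) :
    ∀ z₀ ∈ (A.e i).target, ∃ V ∈ 𝓝 z₀, ∃ C : ℝ≥0∞, C < ⊤ ∧ ∀ v, ∀ Kc ⊆ V, IsCompact Kc →
      ∀ I, ∫⁻ z in Kc, ‖S i v ((A.e i).symm z) I‖ₑ ^ 2 ≤
        C * volume ((fun z => a (D.pt i v ((A.e i).symm z))) '' Kc) := by
  intro z₀ hz
  obtain ⟨N, hN, hz', hNt⟩ := exists_compact_subset (A.e i).open_target hz
  obtain ⟨C, -, hC⟩ := bd_enn K i hN hNt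
  exact ⟨N, mem_interior_iff_mem_nhds.1 hz', ENNReal.ofReal (C * E), ENNReal.ofReal_lt_top,
    fun v Kc hK hc I => hC hB v (fun I => (hS i v I).mono hNt) Kc hK hc I⟩

/-- fibre energy zero means zero -/
theorem eq_zero_of_bd {H : Type*} [NormedAddCommGroup H] [InnerProductSpace ℂ H]
    {S : A.ι → G → X → FI n → H} {E : ℝ} (hB : Bd D K a S E) (hE : E ≤ 0)
    (hS : ∀ i v I, ContinuousOn (fun z => S i v ((A.e i).symm z) I) (A.e i).target) (i : A.ι)
    (v : G) : ∀ x ∈ (A.e i).source, S i v x = 0 := by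
  intro x hx
  funext I
  obtain ⟨N, hN, hz', hNt⟩ := exists_compact_subset (A.e i).open_target ((A.e i).map_source hx)
  obtain ⟨C, hC0, hC⟩ := bd_enn K i hN hNt
  have h1 := hC hB v (fun I => (hS i v I).mono hNt) N Subset.rfl hN I
  rw [ENNReal.ofReal_of_nonpos (mul_nonpos_of_nonneg_of_nonpos hC0.le hE), zero_mul] at h1
  have h2 : ∫⁻ z in interior N, ‖S i v ((A.e i).symm z) I‖ₑ ^ 2 = 0 :=
    le_antisymm ((lintegral_mono_set interior_subset).trans h1) zero_le
  have hcN : ContinuousOn (fun z => S i v ((A.e i).symm z) I) (interior N) :=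
    (hS i v I).mono (interior_subset.trans hNt)
  have h3 := (lintegral_eq_zero_iff' ((hcN.aestronglyMeasurable
    isOpen_interior.measurableSet).enorm.pow_const 2)).1 h2
  have h4 : (fun z => S i v ((A.e i).symm z) I) =ᵐ[volume.restrict (interior N)] fun _ => 0 := by
    filter_upwards [h3] with z hz
    simpa using hz
  have h5 := Measure.eqOn_open_of_ae_eq h4 isOpen_interior hcN continuousOn_const hz'
  simpa [(A.e i).left_inv hx] using h5

end

end Crest.Agent.X261.Fam77
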