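import Crest.Agent.X261.Fam.GA
import Crest.Agent.X261.Fam77.Bd

/-!
# Row 261, package FAM (helper77), part UqA: equivariant forms and their pairing

* `Sl_congr`, `Sl_sub`, `Sl_sum`, `Sl_hor` : flat calculus of `∂F ∧ da`;
* `Fm D M r T` : continuous equivariant forms on the covering, read in the charts;
* `fm_Sl` : `∂f ∧ da` is such a form; `den_p2` : the pairing of two forms is a density.
-/

set_option autoImplicit false
set_option linter.unusedSectionVars false

open Set Filter Topology MeasureTheory Matrix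
open scoped ComplexConjugate ComplexOrder InnerProductSpace ContDiff

namespace Crest.Agent.X261.Fam77

open Crest.Agent.R275.Geo Crest.Agent.R275.Core144 Crest.Agent.R273.UCov_914
open Crest.Agent.R273.Kah_333 Crest.Agent.R275.EDR890
open Crest.Agent.R273.Fock_243 Crest.Agent.R273.GamR_155
open Crest.Agent.X261.Fam
open Crest.Agent.X261.Rel.Act (Rep)

noncomputable section

variable {n q : ℕ} {H : Type*} [NormedAddCommGroup H] [InnerProductSpace ℂ H]

/-! ### flat calculus -/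

theorem Sl_congr (a : Cn n → Cn q) {F F' : Cn n → H} {z : Cn n} (h : F =ᶠ[𝓝 z] F') :
    Sl a F z = Sl a F' z := by
  unfold Sl
  congr 1
  funext b
  exact wd_congr h _

theorem Sl_zero (a : Cn n → Cn q) {F : Cn n → H} {z : Cn n} (h : ∀ᶠ w in 𝓝 z, F w = 0) :
    Sl a F z = 0 := by
  rw [Sl_congr a (F' := fun _ => 0) h]
  funext I
  simp [Sl, ac, th, wd_const]

theorem Sl_sub (a : Cn n → Cn q) {F F' : Cn n → H} {z : Cn n} (h : DifferentiableAt ℝ F z)
    (h' : DifferentiableAt ℝ F' z) : Sl a (fun w => F w - F' w) z = Sl a F z - Sl a F' z := by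
  unfold Sl
  rw [← ac_sub]
  congr 1
  funext b
  have h1 : (fun w => F w - F' w) = fun w => F w + (-1 : ℂ) • F' w := by
    funext w; rw [neg_one_smul, sub_eq_add_neg]
  simp only [th, Pi.sub_apply]
  rw [h1, wd_add h (h'.fun_const_smul (-1 : ℂ)), wd_const_smul _ h', neg_one_smul, sub_eq_add_neg]

theorem Sl_sum (a : Cn n → Cn q) {κ : Type*} (s : Finset κ) {F : κ → Cn n → H} {z : Cn n}
    (h : ∀ k ∈ s, DifferentiableAt ℝ (F k) z) :
    Sl a (fun w => ∑ k ∈ s, F k w) z = ∑ k ∈ s, Sl a (F k) z := by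
  funext I
  simp only [Sl, ac, th, wd_sum s h, Finset.smul_sum, Finset.sum_apply]
  exact Finset.sum_comm

theorem wd_false (b : Fin n) {W : Type*} [NormedAddCommGroup W] [NormedSpace ℂ W] (f : Cn n → W)
    (z : Cn n) : wd (false, b) f z = R275.OmT75.dj b f z := by
  simp only [wd, wdL, R275.OmT75.dj, cI_false, neg_smul, sub_eq_add_neg]

theorem Cf_eq {a : Cn n → Cn q} {z : Cn n} (ha : DifferentiableAt ℂ a z) (b : Fin n) (h : Fin q) :
    Cf a z b h = fderiv ℂ a z (EuclideanSpace.single b 1) h := by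
  have h1 : HasFDerivAt (fun w => a w h)
      (((EuclideanSpace.proj h : Cn q →L[ℂ] ℂ).comp (fderiv ℂ a z)).restrictScalars ℝ) z :=
    ((EuclideanSpace.proj h : Cn q →L[ℂ] ℂ).hasFDerivAt.comp z ha.hasFDerivAt).restrictScalars ℝ
  have e : EuclideanSpace.single b Complex.I = Complex.I • (EuclideanSpace.single b (1 : ℂ) : Cn n) := by
    ext c; simp
  simp only [Cf, Matrix.of_apply, wd, wdL, h1.fderiv, e, ContinuousLinearMap.coe_restrictScalars',
    ContinuousLinearMap.comp_apply, map_smul, cI_false, smul_eq_mul]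
  change _ = (EuclideanSpace.proj h : Cn q →L[ℂ] ℂ) _
  linear_combination (-(1 / 2) * (EuclideanSpace.proj h : Cn q →L[ℂ] ℂ)
    (fderiv ℂ a z (EuclideanSpace.single b 1))) * Complex.I_mul_I

/-- functions of `a` are horizontal -/
theorem Sl_hor {a : Cn n → Cn q} {F : Cn n → H} {χ : Cn q → ℂ} {z : Cn n}
    (ha : DifferentiableAt ℂ a z) (hF : DifferentiableAt ℝ F z)
    (hχ : DifferentiableAt ℝ χ (a z)) :
    Sl a (fun w => χ (a w) • F w) z = χ (a z) • Sl a F z := by
  have h1 : DifferentiableAt ℝ (fun w => χ (a w)) z := hχ.comp z (ha.restrictScalars ℝ)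
  have h2 : ∀ b, wd (false, b) (fun w => χ (a w)) z =
      (Cf a z *ᵥ fun h => R275.OmT75.dj h χ (a z)) b := fun b => by
    rw [wd_false, R275.OmT75.dj_comp hχ ha]
    simp only [Matrix.mulVec, dotProduct, Cf_eq ha, smul_eq_mul]
  have h3 : vI (Cf a z) *ᵥ (Cf a z *ᵥ fun h => R275.OmT75.dj h χ (a z)) = 0 := by
    rw [Matrix.mulVec_mulVec, vI_mul_self, Matrix.zero_mulVec]
  funext I
  have h4 := congrFun h3 I
  simp only [Matrix.mulVec, dotProduct, Pi.zero_apply] at h4 h2
  simp only [Sl, ac, th, wd_smul h1 hF, h2, smul_add, Finset.sum_add_distrib, smul_smul,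
    Pi.smul_apply, Finset.smul_sum]
  rw [← Finset.sum_smul, h4, zero_smul, zero_add]
  exact Finset.sum_congr rfl fun b _ => by rw [mul_comm]

theorem cont_GamR {r s : ℕ} (S : FI r) (T : FI s) :
    Continuous fun B : Matrix (Fin r) (Fin s) ℂ => GamR B S T := by
  unfold GamR
  split_ifs with h
  · exact (continuous_id.matrix_submatrix _ _).matrix_det
  · exact continuous_const

theorem cont_vI (I : FI n) (b : Fin n) : Continuous fun C : Mr n q => vI C I b := by
  simp only [vI, tau, Matrix.of_apply, Matrix.mulVec, dotProduct]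
  exact continuous_finsetSum _ fun J _ => continuous_const.mul
    (continuous_finsetSum _ fun L _ => (cont_GamR J L).mul continuous_const)

theorem cont_Cf {a : Cn n → Cn q} {U : Set (Cn n)} (hU : IsOpen U) (ha : DifferentiableOn ℂ a U) :
    ContinuousOn (Cf a) U := by
  have h1 : ContDiffOn ℝ ∞ a U :=
    ((R266.SCV.analyticOnNhd_of_differentiableOn hU ha).contDiffOn_of_completeSpace).restrict_scalars ℝ
  refine continuousOn_pi.2 fun b => continuousOn_pi.2 fun h => ?_
  exact (contDiffOn_wd hU (((EuclideanSpace.proj h : Cn q →L[ℂ] ℂ).restrictScalars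
    ℝ).contDiff.comp_contDiffOn h1) (false, b)).continuousOn

theorem cont_Sl {a : Cn n → Cn q} {F : Cn n → H} {U : Set (Cn n)} (hU : IsOpen U)
    (ha : DifferentiableOn ℂ a U) (hF : ContDiffOn ℝ ∞ F U) (I : FI n) :
    ContinuousOn (fun z => Sl a F z I) U := by
  simp only [Sl, ac, th]
  exact continuousOn_finsetSum _ fun b _ => ((cont_vI I b).comp_continuousOn (cont_Cf hU ha)).smul
    (contDiffOn_wd hU hF (false, b)).continuousOn

/-! ### the pairing -/

theorem p2_tr {N : Mt n} (hN : N.det ≠ 0) (g : Mt n) (S S' : FI n → H) :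
    p2 (N * g * Nᴴ) (ac (Gam N) S) (ac (Gam N) S') = ((‖N.det‖ ^ 2 : ℝ) : ℂ) * p2 g S S' := by
  rw [p2, p2, det_conj, ← ip_conj, Gam_ct, ← Gam_mul, ← Gam_mul, inv_conj hN, mul_assoc]

theorem p2_sub_left (g : Mt n) (S S' T : FI n → H) : p2 g (S - S') T = p2 g S T - p2 g S' T := by
  rw [p2, p2, p2, ip_sub_left, mul_sub]

theorem p2_sub_right (g : Mt n) (S T T' : FI n → H) : p2 g S (T - T') = p2 g S T - p2 g S T' := by
  rw [p2, p2, p2, ip_sub_right, mul_sub]

theorem p2_zero_left (g : Mt n) (T : FI n → H) : p2 g 0 T = 0 := by simp [p2, ip_eq]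

theorem p2_smul_left (g : Mt n) (c : ℝ) (S T : FI n → H) :
    p2 g ((c : ℂ) • S) T = c * p2 g S T := by
  rw [p2, p2, ip_smul_left, Complex.conj_ofReal, mul_left_comm]

theorem p2_sum_left (g : Mt n) {κ : Type*} (s : Finset κ) (S : κ → FI n → H) (T : FI n → H) :
    p2 g (∑ k ∈ s, S k) T = ∑ k ∈ s, p2 g (S k) T := by
  classical
  induction s using Finset.induction_on with
  | empty => simp [p2_zero_left]
  | insert k s hk ih =>
    rw [Finset.sum_insert hk, Finset.sum_insert hk, ← ih, p2, p2, p2, ip_add_left, mul_add]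

theorem norm_p2_le {g : Mt n} (hg : g.PosDef) (S T : FI n → H) :
    ‖p2 g S T‖ ≤ 1 / 2 * n2 g S + 1 / 2 * n2 g T := by
  have h := norm_ip_le (gam_psd hg.inv) S T 1 one_pos
  rw [n2_eq hg, n2_eq hg, p2, norm_mul, det_ofReal hg, Complex.norm_real, Complex.ofReal_re,
    Real.norm_of_nonneg (det_re_pos hg).le]
  have h2 := mul_le_mul_of_nonneg_left h (det_re_pos hg).le
  linarith

/-! ### forms on the covering -/

variable {X : Type} [TopologicalSpace X] {A : Atl n X} {G : Type} [Group G]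
variable {D : MonD A G} {M : Subgroup G} {a : D.cov G → Cn q} {r : Rep M H}

theorem hol_rd (hd : Dat D M a) (i : A.ι) (v : G) :
    DifferentiableOn ℂ (Fam.rd D a i v) (A.e i).target := by
  have h := hd.hol (i, v)
  rw [preimage_univ, inter_univ] at h
  exact h

theorem sm_rd {W : Type*} [NormedAddCommGroup W] [NormedSpace ℝ W] {f : D.cov G → W}
    (hf : (D.atl G).Sm f) (i : A.ι) (v : G) :
    ContDiffOn ℝ ∞ (Fam.rd D f i v) (A.e i).target := hf (i, v)

theorem dif_rd {W : Type*} [NormedAddCommGroup W] [NormedSpace ℝ W] {f : D.cov G → W}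
    (hf : (D.atl G).Sm f) (i : A.ι) (v : G) {z : Cn n} (hz : z ∈ (A.e i).target) :
    DifferentiableAt ℝ (Fam.rd D f i v) z :=
  ((sm_rd hf i v).contDiffAt ((A.e i).open_target.mem_nhds hz)).differentiableAt (by simp)

theorem wd_tr {W : Type*} [NormedAddCommGroup W] [NormedSpace ℂ W] {f : D.cov G → W} {i j : A.ι}
    {v : G} {x : X} (hx : x ∈ (A.e i).source ∩ (A.e j).source)
    (hf : DifferentiableAt ℝ (Fam.rd D f j (D.c i j x * v)) (A.e j x)) (b : Fin n) :
    wd (false, b) (Fam.rd D f i v) (A.e i x) =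
      ∑ c, (Jm A i j x)ᵀ b c • wd (false, c) (Fam.rd D f j (D.c i j x * v)) (A.e j x) := by
  have h1 : Fam.rd D f i v =ᶠ[𝓝 (A.e i x)]
      fun z => Fam.rd D f j (D.c i j x * v) (R275.OmT75.tr A i j z) := by
    filter_upwards [(isOpen_ov i j).mem_nhds (mem_ov hx)] with z hz
    have hi := (A.e i).map_target hz.1
    simp only [Fam.rd, R275.OmT75.tr]
    rw [(A.e j).left_inv hz.2, D.pt_eq v hi hz.2, D.c_loc i j x hx _ ⟨hi, hz.2⟩]
    rfl
  rw [← R275.OmT75.tr_val hx] at hf
  rw [wd_congr h1, wd_comp hf (R275.OmT75.tr_diffAt (mem_ov hx)), R275.OmT75.tr_val hx]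
  rfl

theorem Cf_tr (hd : Dat D M a) {i j : A.ι} (v : G) {x : X}
    (hx : x ∈ (A.e i).source ∩ (A.e j).source) :
    Cf (Fam.rd D a i v) (A.e i x) =
      (Jm A i j x)ᵀ * Cf (Fam.rd D a j (D.c i j x * v)) (A.e j x) := by
  ext b h
  have h1 : DifferentiableAt ℂ (Fam.rd D a j (D.c i j x * v)) (A.e j x) :=
    (hol_rd hd j _).differentiableAt ((A.e j).open_target.mem_nhds ((A.e j).map_source hx.2))
  exact wd_tr (f := fun e => a e h) hx
    (((EuclideanSpace.proj h : Cn q →L[ℂ] ℂ).differentiableAt.comp _ h1).restrictScalars ℝ) b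

theorem Sl_tr (hd : Dat D M a) {f : D.cov G → H} (hf : (D.atl G).Sm f) {i j : A.ι} (v : G) {x : X}
    (hx : x ∈ (A.e i).source ∩ (A.e j).source) :
    Sl (Fam.rd D a i v) (Fam.rd D f i v) (A.e i x) = ac (Gam (Jm A i j x)ᵀ)
      (Sl (Fam.rd D a j (D.c i j x * v)) (Fam.rd D f j (D.c i j x * v)) (A.e j x)) := by
  have h1 : th (Fam.rd D f i v) (A.e i x) =
      ac (Jm A i j x)ᵀ (th (Fam.rd D f j (D.c i j x * v)) (A.e j x)) :=
    funext fun b => wd_tr hx (dif_rd hf j _ ((A.e j).map_source hx.2)) b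
  rw [Sl, Sl, h1, Cf_tr hd v hx, ← ac_mul, vI_mul, ac_mul]

/-- continuous equivariant forms, read in the charts -/
structure Fm (D : MonD A G) (M : Subgroup G) (r : Rep M H) (T : A.ι → G → Cn n → FI n → H) :
    Prop where
  cont : ∀ i v I, ContinuousOn (fun z => T i v z I) (A.e i).target
  tr : ∀ i j v, ∀ x ∈ (A.e i).source ∩ (A.e j).source,
    T i v (A.e i x) = ac (Gam (Jm A i j x)ᵀ) (T j (D.c i j x * v) (A.e j x))
  eqv : ∀ (m : M) i v, ∀ z ∈ (A.e i).target, ∀ I, T i (v * (m : G)⁻¹) z I = r.π m (T i v z I)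

variable {T T' : A.ι → G → Cn n → FI n → H}

theorem Fm.sub (h : Fm D M r T) (h' : Fm D M r T') : Fm D M r fun i v z => T i v z - T' i v z :=
  ⟨fun i v I => (h.cont i v I).sub (h'.cont i v I),
    fun i j v x hx => by rw [h.tr i j v x hx, h'.tr i j v x hx, ac_sub],
    fun m i v z hz I => by
      simp only [Pi.sub_apply, h.eqv m i v z hz, h'.eqv m i v z hz, map_sub]⟩

theorem rd_inv (hd : Dat D M a) {m : G} (hm : m ∈ M) (i : A.ι) (v : G) :
    Fam.rd D a i (v * m⁻¹) = Fam.rd D a i v := by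
  funext z
  rw [Fam77.rd_deck, hd.inv m hm]
  rfl

theorem fm_Sl (hd : Dat D M a) {f : D.cov G → H} (hf : (D.atl G).Sm f)
    (he : ∀ m : M, ∃ c, ∀ e, f ((m : G) • e) = r.π m (f e) + c) :
    Fm D M r fun i v => Sl (Fam.rd D a i v) (Fam.rd D f i v) := by
  refine ⟨fun i v I => cont_Sl (A.e i).open_target (hol_rd hd i v) (sm_rd hf i v) I,
    fun i j v x hx => Sl_tr hd hf v hx, fun m i v z hz I => ?_⟩
  obtain ⟨c, hc⟩ := he m
  have h1 : Fam.rd D f i (v * (m : G)⁻¹) = fun w =>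
      (r.π m).toContinuousLinearEquiv.toContinuousLinearMap (Fam.rd D f i v w) + c := by
    funext w
    rw [Fam77.rd_deck, hc]
    rfl
  have h2 := dif_rd hf i v hz
  have h3 : ∀ b, th (Fam.rd D f i (v * (m : G)⁻¹)) z b = r.π m (th (Fam.rd D f i v) z b) :=
    fun b => by
      have h4 : DifferentiableAt ℝ (fun w =>
          (r.π m).toContinuousLinearEquiv.toContinuousLinearMap (Fam.rd D f i v w)) z :=
        ((r.π m).toContinuousLinearEquiv.toContinuousLinearMap.restrictScalars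
          ℝ).differentiableAt.comp z h2
      rw [th, h1, wd_add h4 (differentiableAt_const c), wd_const, add_zero, wd_clm h2]
      rfl
  simp only [Sl, ac, rd_inv hd m.2, h3, map_sum, map_smul]

theorem det_Jm_ne (K : Kah A) {i j : A.ι} {x : X} (hx : x ∈ (A.e i).source ∩ (A.e j).source) :
    ((Jm A i j x)ᵀ).det ≠ 0 := fun h0 => by
  have h := det_law K hx
  rw [Matrix.det_transpose] at h0
  rw [h0, norm_zero, zero_pow two_ne_zero, Complex.ofReal_zero, zero_mul] at h
  exact (K.pos i x hx.1).det_pos.ne' h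

/-- the pairing of two forms against a weight -/
def dP (D : MonD A G) (K : Kah A) (φ : D.cov G → ℝ) (T T' : A.ι → G → Cn n → FI n → H) (i : A.ι)
    (v : G) (z : Cn n) : ℂ :=
  ((Fam.rd D φ i v z : ℝ) : ℂ) * p2 (K.g i ((A.e i).symm z)) (T i v z) (T' i v z)

theorem cont_rd {W : Type*} [TopologicalSpace W] {φ : D.cov G → W} (hφ : Continuous φ) (i : A.ι)
    (v : G) : ContinuousOn (Fam.rd D φ i v) (A.e i).target :=
  hφ.comp_continuousOn ((D.continuousOn_pt i v).comp (A.e i).continuousOn_symm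
    fun _ hz => (A.e i).map_target hz)

theorem den_p2 (K : Kah A) (h : Fm D M r T) (h' : Fm D M r T') {φ : D.cov G → ℝ}
    (hφ : Continuous φ) (hi : ∀ m ∈ M, ∀ e, φ (m • e) = φ e) {R : ℝ}
    (hs : ∀ e, R < ‖a e‖ → φ e = 0) : Den D M a R (dP D K φ T T') := by
  refine ⟨fun i j v x hx => ?_, fun m hm i v z hz => ?_, fun i v => ?_, fun i v z hz h1 => ?_⟩
  · have h1 : K.g i x = (Jm A i j x)ᵀ * K.g j x * ((Jm A i j x)ᵀ)ᴴ := K.tr i j x hx
    rw [dP, dP, (A.e i).left_inv hx.1, (A.e j).left_inv hx.2, rd_pt D φ v hx.1, rd_pt D φ _ hx.2,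
      h.tr i j v x hx, h'.tr i j v x hx, h1, p2_tr (det_Jm_ne K hx), Matrix.det_transpose,
      D.pt_eq v hx.1 hx.2, mul_left_comm]
    rfl
  · have h1 : T i (v * m⁻¹) z = fun I => (r.π ⟨m, hm⟩).toLinearIsometry (T i v z I) :=
      funext (h.eqv ⟨m, hm⟩ i v z hz)
    have h2 : T' i (v * m⁻¹) z = fun I => (r.π ⟨m, hm⟩).toLinearIsometry (T' i v z I) :=
      funext (h'.eqv ⟨m, hm⟩ i v z hz)
    rw [dP, dP, Fam77.rd_deck, hi m hm, h1, h2, p2, p2, ip_iso]
    rfl
  · exact (Complex.continuous_ofReal.comp_continuousOn (cont_rd hφ i v)).mul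
      (cont_p2 K i Subset.rfl (h.cont i v) (h'.cont i v))
  · rw [dP, Fam.rd, hs _ h1, Complex.ofReal_zero, zero_mul]

end

end Crest.Agent.X261.Fam77
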